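import Vale.Agent.P156.R2.Spec
import Vale.Agent.P156.B.Bridge
import Vale.Agent.P156.H520.Tree
import Vale.Agent.P156.H613.BridgeM
import Vale.Agent.P156.H992.Gap

/-! # Fixed energy upgrade (FE): definitions

`z = E + iη`, `mm d z` the tree Stieltjes transform, `rho`, `dev` the truncated squared deviations
of the lead matrix and of the star matrix from their tree values, `VV` the global observable,
weights and their variation under local changes of the graph. -/

open MeasureTheory Filter Topology Matrix Finset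

namespace Vale.Agent.P156.FE

noncomputable section

/-- The spectral parameter `E + iη`. -/
def zz (E η : ℝ) : ℂ := (E : ℂ) + (η : ℂ) * Complex.I

/-- `m(z)`: the root of `(d-1) m² + z m + 1 = 0` with `Im m > 0` (for `Im z > 0`). -/
def mm (d : ℕ) (z : ℂ) : ℂ := _root_.P156.H613.mz (d - 1) z

/-- The bounded coordinate `(h - m)/(h - m⁻¹)`. -/
abbrev TT (m h : ℂ) : ℂ := _root_.P156.Gap.T m h

/-- Compact interval in the bulk. -/
def Bulk (d : ℕ) (a b : ℝ) : Prop :=
  3 ≤ d ∧ a < b ∧ -(2 * Real.sqrt ((d : ℝ) - 1)) < a ∧ b < 2 * Real.sqrt ((d : ℝ) - 1)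

/-- Admissible size. -/
def Adm (n d : ℕ) : Prop := d < n ∧ Even (n * d)

/-- Truncated squared deviation of the lead matrix from `m(z) I`. -/
def rho {n d K : ℕ} (ω : SimpleGraph (Fin n) × StarPos n d K) (z : ℂ) : ℝ :=
  min 1 (∑ a, ∑ b, ‖leadMat ω z a b - (if a = b then mm d z else 0)‖ ^ 2)

/-- Truncated squared deviation of the star matrix from the tree resolvent. -/
def dev {n d K : ℕ} (ω : SimpleGraph (Fin n) × StarPos n d K) (z : ℂ) : ℝ :=
  min 1 (∑ x, ∑ y, ‖starMat ω z x y - H520.Kz d z (mm d z) K x y‖ ^ 2)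

/-- The point of the sample space with one star. -/
def one {n d : ℕ} (G : SimpleGraph (Fin n)) (t : Fin n × (Fin d → Fin n)) :
    SimpleGraph (Fin n) × StarPos n d 1 := B.mk G (fun _ : Fin 1 => t)

/-- The single star number `j` of a point of the sample space. -/
def sub1 {n d K : ℕ} (ω : SimpleGraph (Fin n) × StarPos n d K) (j : Fin K) :
    SimpleGraph (Fin n) × StarPos n d 1 := (ω.1, fun _ => ω.2.1 j, fun _ => ω.2.2 j)

/-- The global observable `V_G(z)`: average of `dev` over one random star of `G`. -/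
def VV (d : ℕ) {n : ℕ} (G : SimpleGraph (Fin n)) (z : ℂ) : ℝ :=
  avg (B.stars d G) (fun t => dev (one G t) z)

/-- Average of `rho` over two random stars of `G`. -/
def RG (d : ℕ) {n : ℕ} (G : SimpleGraph (Fin n)) (z : ℂ) : ℝ :=
  avg (B.mstars d 2 G) (fun s => rho (B.mk G s) z)

/-- Weighted average of `rho` over `W_2`. -/
def XW (n d : ℕ) (w : SimpleGraph (Fin n) → ℝ) (z : ℂ) : ℝ :=
  avg (WW n d 2) (fun ω => w ω.1 * rho ω z)

/-- Mean weight. -/
def MW (n d : ℕ) (w : SimpleGraph (Fin n) → ℝ) : ℝ := avg (regularGraphs n d) w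

/-- At most `k` vertices have different neighbourhoods in `G` and `G'`. -/
def Near {n : ℕ} (k : ℕ) (G G' : SimpleGraph (Fin n)) : Prop :=
  {v : Fin n | G.neighborSet v ≠ G'.neighborSet v}.ncard ≤ k

/-- Weights on regular graphs: `w, w' ≥ 0`, and a local change of the graph changes `w` by at most
`b w'`. -/
structure Wt (n d : ℕ) (b : ℝ) (w w' : SimpleGraph (Fin n) → ℝ) : Prop where
  nonneg : ∀ G, 0 ≤ w G
  nonneg' : ∀ G, 0 ≤ w' G
  var : ∀ G ∈ regularGraphs n d, ∀ G' ∈ regularGraphs n d, Near ((d + 1) ^ 2) G G' →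
    |w G' - w G| ≤ b * w' G

/-- Coupling between two star positions: `∑ |G_xy|²` over the two stars. -/
def Gam {n d : ℕ} (G : SimpleGraph (Fin n)) (z : ℂ) (s t : Fin n × (Fin d → Fin n)) : ℝ :=
  ∑ x : Option (Fin d), ∑ y : Option (Fin d), ‖resD (adj G) ∅ z (B.pos s x) (B.pos t y)‖ ^ 2

end

end Vale.Agent.P156.FE
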