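import Vale.Agent.P156.FE.Ind

/-! # Fixed energy upgrade, block FE10: the weighted second moment from the unweighted one -/

open Finset

namespace Vale.Agent.P156.FE

open Vale.Agent.P156 Vale.Agent.P156.H737 Vale.Agent.P156.FE.Ind

noncomputable section

lemma cl_eq_one {ε x : ℝ} (hε : 0 < ε) (h : x ≤ ε) : cl ε x = 1 := by
  by_contra h1
  exact absurd (cl_ne_one hε h1) (not_lt.2 h)

lemma cl_mono {ε ε' x : ℝ} (hε : 0 < ε) (hx : 0 ≤ x) (h : ε ≤ ε') : cl ε x ≤ cl ε' x := by
  unfold cl
  refine max_le_max le_rfl (min_le_min le_rfl ?_)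
  have : x / ε' ≤ x / ε := div_le_div_of_nonneg_left hx hε h
  linarith

/-- **FE10, weighted second moment.** -/
theorem specSM_of_V2 {d : ℕ} {a b : ℝ} (hN : SpecVnear d a b) (hV : SpecV2 d a b) :
    SpecSM d a b := by
  classical
  obtain ⟨CN₀, hCN₀⟩ := hN ((d + 1) ^ 2)
  obtain ⟨AV, hAV, hV⟩ := hV
  set CN := max 0 CN₀ with hCN
  have hCN0 : 0 ≤ CN := le_max_left _ _
  refine ⟨1, one_pos, fun ε hε _ => ?_⟩
  set e := ε / 6 with he
  have he0 : 0 < e := by positivity
  refine ⟨1 + CN / e + AV + AV / e ^ 2, 1 + CN / e, ?_, ?_, ?_⟩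
  · have h1 : 0 ≤ CN / e := by positivity
    have h2 : 0 ≤ AV / e ^ 2 := by positivity
    linarith
  · have h1 : 0 ≤ CN / e := by positivity
    linarith
  intro n hn E hE η hη0 hη1 hnη
  have h1 : 0 ≤ CN / e := by positivity
  have h2 : 0 ≤ AV / e ^ 2 := by positivity
  have hnη1 : 1 ≤ n * η := by linarith
  have hnη0 : 0 < n * η := by linarith
  have hvar : ∀ G ∈ regularGraphs n d, ∀ G' ∈ regularGraphs n d, Near ((d + 1) ^ 2) G G' →
      |VV d G' (zz E η) - VV d G (zz E η)| ≤ CN / (n * η) := by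
    intro G hG G' hG' h
    rw [abs_sub_comm]
    exact (hCN₀ n G hG G' hG' h E hE η hη0 hη1).trans
      (div_le_div_of_nonneg_right (le_max_right _ _) hnη0.le)
  have hsmall : CN / (n * η) ≤ e := by
    rw [div_le_iff₀ hnη0]
    have h3 : CN / e ≤ n * η := by linarith
    rw [div_le_iff₀ he0] at h3
    linarith
  refine ⟨fun G => cl e (VV d G (zz E η)), fun G => cl (3 * e) (VV d G (zz E η)), ⟨?_, ?_, ?_⟩,
    fun G => cl_le_one _ _, fun G => cl_le_one _ _,
    fun G => cl_mono he0 (VV_nonneg _ _) (by linarith), fun G _ h => ?_, ?_, ?_⟩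
  · exact fun G => cl_nonneg _ _
  · exact fun G => cl_nonneg _ _
  · intro G hG G' hG' hGG
    have h3 := hvar G hG G' hG' hGG
    by_cases h0 : cl e (VV d G' (zz E η)) = 0 ∧ cl e (VV d G (zz E η)) = 0
    · rw [h0.1, h0.2]
      simp only [sub_zero, abs_zero]
      exact mul_nonneg (by positivity) (cl_nonneg _ _)
    · have h4 : VV d G (zz E η) ≤ 3 * e := by
        rw [not_and_or] at h0
        rcases h0 with h0 | h0
        · have h5 := cl_ne_zero he0 h0
          have h6 := (abs_le.1 h3).1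
          linarith
        · have h5 := cl_ne_zero he0 h0
          linarith
      rw [cl_eq_one (by linarith) h4, mul_one]
      calc |cl e (VV d G' (zz E η)) - cl e (VV d G (zz E η))|
          ≤ |VV d G' (zz E η) - VV d G (zz E η)| / e := cl_lip he0 _ _
        _ ≤ (CN / (n * η)) / e := div_le_div_of_nonneg_right h3 he0.le
        _ = (CN / e) / (n * η) := by ring
        _ ≤ _ := div_le_div_of_nonneg_right (by linarith) hnη0.le
  · have h3 := cl_ne_zero (by linarith) h
    rw [he] at h3
    linarith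
  · have h3 : prob (regularGraphs n d) (fun G => cl e (VV d G (zz E η)) ≠ 1) ≤
        (e ^ 2)⁻¹ * avg (regularGraphs n d) (fun G => VV d G (zz E η) ^ 2) := by
      rw [← avg_mul_left]
      unfold prob
      refine avg_mono fun G _ => ?_
      split_ifs with h4
      · have h5 := cl_ne_one he0 h4
        have h6 : e ^ 2 ≤ VV d G (zz E η) ^ 2 := pow_le_pow_left₀ he0.le h5.le 2
        rw [← div_eq_inv_mul, le_div_iff₀ (by positivity), one_mul]
        exact h6
      · positivity
    have h4 := hV n hn E hE η hη0 hη1 hnη1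
    calc _ ≤ _ := h3
      _ ≤ (e ^ 2)⁻¹ * (AV / (n * η) ^ 2) := mul_le_mul_of_nonneg_left h4 (by positivity)
      _ = (AV / e ^ 2) / (n * η) ^ 2 := by ring
      _ ≤ _ := div_le_div_of_nonneg_right (by linarith) (by positivity)
  · have h4 := hV n hn E hE η hη0 hη1 hnη1
    calc avg (regularGraphs n d) (fun G => cl (3 * e) (VV d G (zz E η)) * VV d G (zz E η) ^ 2)
        ≤ avg (regularGraphs n d) (fun G => VV d G (zz E η) ^ 2) := by
          refine avg_mono fun G _ => ?_
          have h5 := cl_le_one (3 * e) (VV d G (zz E η))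
          have h6 : 0 ≤ VV d G (zz E η) ^ 2 := sq_nonneg _
          nlinarith
      _ ≤ _ := h4
      _ ≤ _ := div_le_div_of_nonneg_right (by linarith) (by positivity)

end

end Vale.Agent.P156.FE
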