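import Vale.Agent.P156.FE.Main
import Vale.Agent.P156.FE.IndSM
import Vale.Agent.P156.H849.Averaged
import Vale.Agent.P156.H520.FE5
import Vale.Agent.P156.H520.FE6c
import Vale.Agent.P156.H574.FE2
import Vale.Agent.P156.H574.FE3
import Vale.Agent.P156.H490.TDh
import Vale.Agent.P156.H9.FE13

/-! # Fixed energy upgrade: the theorem from the one-step inequality and the base scale -/

open MeasureTheory Filter Topology Finset

namespace Vale.Agent.P156.FE

open Vale.Agent.P156

/-- All conditions of `GoodSeq` except the microscopic ones, at every energy. -/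
theorem specEv_of_OS {d : ℕ} {a b : ℝ} (hB : Bulk d a b)
    (hOS : SpecOS1 d a b) (hBS : SpecBS1 d a b) : SpecEv d a b := by
  have hM := H913.specM hB
  have hC := H520.specComp hB.1 hM
  have hG : SpecGrow d a b := H574.specGrow (by have := hB.1; omega) hM hC
  exact specEv_of_open hB (B.specZW d) hC (H520.specRV hB.1 hM) (H520.specVcont hB.1 hM) hOS hBS
    (fun hFM hV2 => H490.TD.specTD hB.1 hM hG (H574.specDec d) hC (H520.specWard d) hFM
      (specSM_of_V2 (H558.specVnear d a b) hV2))

theorem targetFixed_of_OS {d : ℕ} (hd : 3 ≤ d)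
    (hOS : ∀ a b, Bulk d a b → SpecOS1 d a b) (hBS : ∀ a b, Bulk d a b → SpecBS1 d a b) :
    TargetFixed d :=
  H9.targetFixed_of_ev hd (fun a b hB => specEv_of_OS hB (hOS a b hB) (hBS a b hB))
    (H849.specS hd)

end Vale.Agent.P156.FE
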