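import Vale.Agent.P156.H737.Avg

/-! # Fixed energy upgrade, block FE10: the scale induction, abstract form -/

open Finset

namespace Vale.Agent.P156.FE.Ind

open Vale.Agent.P156 Vale.Agent.P156.H737

noncomputable section

/-! ### The cut function and the weights -/

/-- Cut function: `1` on `(-∞, ε]`, `0` on `[2ε, ∞)`. -/
def cl (ε x : ℝ) : ℝ := max 0 (min 1 (2 - x / ε))

lemma cl_nonneg (ε x : ℝ) : 0 ≤ cl ε x := le_max_left _ _

lemma cl_le_one (ε x : ℝ) : cl ε x ≤ 1 := max_le zero_le_one (min_le_left _ _)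

lemma cl_ne_one {ε x : ℝ} (hε : 0 < ε) (h : cl ε x ≠ 1) : ε < x := by
  by_contra hx
  push Not at hx
  have h1 : x / ε ≤ 1 := (div_le_one hε).2 hx
  apply h
  unfold cl
  rw [min_eq_left (by linarith), max_eq_right zero_le_one]

lemma cl_ne_zero {ε x : ℝ} (hε : 0 < ε) (h : cl ε x ≠ 0) : x ≤ 2 * ε := by
  by_contra hx
  push Not at hx
  have h1 : 2 < x / ε := by rwa [lt_div_iff₀ hε]
  apply h
  unfold cl
  exact max_eq_left ((min_le_right _ _).trans (by linarith))

lemma cl_ge_half {ε x : ℝ} (hε : 0 < ε) (h : x ≤ 3 / 2 * ε) : 1 / 2 ≤ cl ε x := by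
  have h1 : x / ε ≤ 3 / 2 := by rwa [div_le_iff₀ hε]
  unfold cl
  exact le_max_of_le_right (le_min (by norm_num) (by linarith))

lemma cl_eq_one_imp {ε x : ℝ} (hε : 0 < ε) (h : cl ε x = 1) : x ≤ ε := by
  by_contra hx
  push Not at hx
  have h1 : 1 < x / ε := by rwa [lt_div_iff₀ hε, one_mul]
  have h2 : cl ε x < 1 := by
    unfold cl
    exact max_lt zero_lt_one (lt_of_le_of_lt (min_le_right _ _) (by linarith))
  linarith

lemma cl_lip {ε : ℝ} (hε : 0 < ε) (x y : ℝ) : |cl ε x - cl ε y| ≤ |x - y| / ε := by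
  unfold cl
  calc |max 0 (min 1 (2 - x / ε)) - max 0 (min 1 (2 - y / ε))|
      ≤ |min 1 (2 - x / ε) - min 1 (2 - y / ε)| := by
        have := abs_max_sub_max_le_abs (min 1 (2 - x / ε)) (min 1 (2 - y / ε)) 0
        rwa [max_comm, max_comm (min 1 (2 - y / ε))] at this
    _ ≤ |(2 - x / ε) - (2 - y / ε)| := by
        have := abs_min_sub_min_le_max 1 (2 - x / ε) 1 (2 - y / ε)
        simpa using this
    _ = |x - y| / ε := by
        rw [show (2 - x / ε) - (2 - y / ε) = -((x - y) / ε) by ring, abs_neg, abs_div,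
          abs_of_pos hε]

variable {α : Type}

/-- The weights. -/
def wk (ε : ℝ) (V : ℕ → α → ℝ) : ℕ → α → ℝ
  | 0, G => cl ε (V 0 G)
  | k + 1, G => min (wk ε V k G) (cl ε (V (k + 1) G))

variable {ε : ℝ} {V R : ℕ → α → ℝ}

lemma wk_nonneg (k : ℕ) (G : α) : 0 ≤ wk ε V k G := by
  induction k with
  | zero => exact cl_nonneg _ _
  | succ k ih => exact le_min ih (cl_nonneg _ _)

lemma wk_le_cl (k : ℕ) (G : α) : wk ε V k G ≤ cl ε (V k G) := by
  cases k with
  | zero => exact le_rfl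
  | succ k => exact min_le_right _ _

lemma wk_le_one (k : ℕ) (G : α) : wk ε V k G ≤ 1 := (wk_le_cl k G).trans (cl_le_one _ _)

lemma wk_anti {k l : ℕ} (h : k ≤ l) (G : α) : wk ε V l G ≤ wk ε V k G := by
  induction l, h using Nat.le_induction with
  | base => exact le_rfl
  | succ l _ ih => exact (min_le_left _ _).trans ih

lemma wk_ne_zero (hε : 0 < ε) {k : ℕ} {G : α} (h : wk ε V k G ≠ 0) : V k G ≤ 2 * ε := by
  apply cl_ne_zero hε
  intro h1
  exact h (le_antisymm (h1 ▸ wk_le_cl k G) (wk_nonneg k G))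

lemma wk_lip (hε : 0 < ε) {k : ℕ} {G G' : α} {b : ℝ} (h : ∀ i ≤ k, |V i G' - V i G| ≤ b) :
    |wk ε V k G' - wk ε V k G| ≤ b / ε := by
  induction k with
  | zero =>
    exact (cl_lip hε _ _).trans (div_le_div_of_nonneg_right (h 0 le_rfl) hε.le)
  | succ k ih =>
    refine (abs_min_sub_min_le_max _ _ _ _).trans (max_le (ih fun i hi => h i (by omega)) ?_)
    exact (cl_lip hε _ _).trans (div_le_div_of_nonneg_right (h (k + 1) le_rfl) hε.le)

/-- Exit bound: if the weight is not `1` then it was lost at some scale. -/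
lemma exit (hε : 0 < ε) (hV : ∀ i G, 0 ≤ V i G) {k : ℕ} {G : α}
    (hc : ∀ i < k, |V (i + 1) G - V i G| ≤ ε / 2) (m : ℕ) (h : wk ε V k G ≠ 1) :
    1 ≤ (V 0 G / ε) ^ m + 2 * ∑ i ∈ Finset.range (k + 1), wk ε V i G * (V i G / ε) ^ m := by
  induction k with
  | zero =>
    have h1 : ε < V 0 G := cl_ne_one hε h
    have h2 : 1 ≤ V 0 G / ε := by rw [le_div_iff₀ hε]; linarith
    have h3 : 1 ≤ (V 0 G / ε) ^ m := one_le_pow₀ h2
    have h4 : 0 ≤ ∑ i ∈ Finset.range (0 + 1), wk ε V i G * (V i G / ε) ^ m :=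
      Finset.sum_nonneg fun i _ => mul_nonneg (wk_nonneg i G)
        (pow_nonneg (div_nonneg (hV i G) hε.le) m)
    linarith
  | succ k ih =>
    rw [Finset.sum_range_succ]
    have h0 : 0 ≤ wk ε V (k + 1) G * (V (k + 1) G / ε) ^ m :=
      mul_nonneg (wk_nonneg _ G) (pow_nonneg (div_nonneg (hV _ G) hε.le) m)
    by_cases hk : wk ε V k G = 1
    · have h1 : wk ε V (k + 1) G = cl ε (V (k + 1) G) := by
        show min (wk ε V k G) (cl ε (V (k + 1) G)) = _
        rw [hk, min_eq_right (cl_le_one _ _)]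
      have h2 : ε < V (k + 1) G := cl_ne_one hε (h1 ▸ h)
      have h3 : V k G ≤ ε := by
        apply cl_eq_one_imp hε
        exact le_antisymm (cl_le_one _ _) (hk ▸ wk_le_cl k G)
      have h4 : V (k + 1) G ≤ 3 / 2 * ε := by
        have := (abs_le.1 (hc k (by omega))).2
        linarith
      have h5 : 1 / 2 ≤ wk ε V (k + 1) G := h1 ▸ cl_ge_half hε h4
      have h6 : 1 ≤ (V (k + 1) G / ε) ^ m :=
        one_le_pow₀ (by rw [le_div_iff₀ hε]; linarith)
      have h7 : 1 / 2 ≤ wk ε V (k + 1) G * (V (k + 1) G / ε) ^ m := by nlinarith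
      have h8 : 0 ≤ ∑ i ∈ Finset.range (k + 1), wk ε V i G * (V i G / ε) ^ m :=
        Finset.sum_nonneg fun i _ => mul_nonneg (wk_nonneg i G)
          (pow_nonneg (div_nonneg (hV i G) hε.le) m)
      have h9 : 0 ≤ (V 0 G / ε) ^ m := pow_nonneg (div_nonneg (hV 0 G) hε.le) m
      linarith
    · have := ih (fun i hi => hc i (by omega)) hk
      linarith

/-! ### The abstract system -/

/-- Scales `n η_k = 1 / U k`, `U (k+1) = r U k`, `k ≤ J`; observables `V k`, `R k`. -/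
structure Sys (ε CN CR C C' C'' r : ℝ) (p : ℕ) (S : Finset α) (Nr : α → α → Prop) (U : ℕ → ℝ)
    (J : ℕ) (V R : ℕ → α → ℝ) : Prop where
  U_pos : ∀ k, 0 < U k
  U_succ : ∀ k, U (k + 1) = r * U k
  V_nonneg : ∀ k G, 0 ≤ V k G
  V_le : ∀ k G, V k G ≤ 1
  R_nonneg : ∀ k G, 0 ≤ R k G
  R_le : ∀ k G, R k G ≤ 1
  near : ∀ k ≤ J, ∀ G ∈ S, ∀ G' ∈ S, Nr G G' → |V k G' - V k G| ≤ CN * U k
  cont : ∀ k < J, ∀ G ∈ S, |V (k + 1) G - V k G| ≤ ε / 2
  RV1 : ∀ k ≤ J, ∀ G ∈ S, R k G ≤ CR * (V k G + U k)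
  RV2 : ∀ k ≤ J, ∀ G ∈ S, V k G ≤ CR * (R k G + U k)
  OS : ∀ k ≤ J, p ≤ k → ∀ B : ℝ, 0 ≤ B → ∀ w : α → ℝ, (∀ G, 0 ≤ w G) →
    (∀ G ∈ S, ∀ G' ∈ S, Nr G G' → |w G' - w G| ≤ B * U k) →
    (∀ G ∈ S, w G ≠ 0 → V k G ≤ 2 * ε) →
    avg S (fun G => w G * R k G) ≤ C * avg S (fun G => w G * R (k - p) G) +
      C' * (1 + B) * (avg S w + avg S (R k)) * U k
  BS : ∀ k ≤ J, k < p → ∀ B : ℝ, 0 ≤ B → ∀ w : α → ℝ, (∀ G, 0 ≤ w G) →
    (∀ G ∈ S, ∀ G' ∈ S, Nr G G' → |w G' - w G| ≤ B * U k) →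
    avg S (fun G => w G * R k G) ≤ C'' * (1 + B) * (avg S w + avg S (R k)) * U k

variable {CN CR C C' C'' r : ℝ} {p : ℕ} {S : Finset α} {Nr : α → α → Prop} {U : ℕ → ℝ} {J : ℕ}

lemma avg_const_mul' (c : ℝ) (Φ : α → ℝ) : avg S (fun ω => c * Φ ω) = c * avg S Φ :=
  avg_mul_left S c Φ

lemma avg_sum' {ι : Type} (t : Finset ι) (Φ : ι → α → ℝ) :
    avg S (fun ω => ∑ i ∈ t, Φ i ω) = ∑ i ∈ t, avg S (Φ i) := by
  unfold avg
  rw [Finset.sum_comm, Finset.sum_div]

lemma avg_le_one {Φ : α → ℝ} (h : ∀ G ∈ S, Φ G ≤ 1) : avg S Φ ≤ 1 :=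
  (avg_mono h).trans (avg_const_le S zero_le_one)

lemma arith1 {K H u v : ℝ} (hK : 0 ≤ K) (hv : 0 ≤ v) (h : 2 * K ≤ H) (e : v * H = u) :
    K ^ 2 * v ^ 2 ≤ u ^ 2 / 4 := by
  have h1 : K * v ≤ u / 2 := by
    rw [← e]; nlinarith
  have h2 : 0 ≤ K * v := mul_nonneg hK hv
  have h3 := pow_le_pow_left₀ h2 h1 2
  calc K ^ 2 * v ^ 2 = (K * v) ^ 2 := by ring
    _ ≤ _ := h3
    _ = _ := by ring

lemma arith2 {Yk Yp K M M' u v : ℝ} (hM : 0 ≤ M) (hM' : 0 ≤ M')
    (h1 : Yk ≤ 1 / 2 * Yk + K ^ 2 / 2 * Yp + M * u ^ 2)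
    (h2 : Yp ≤ (4 * M + M') * v ^ 2) (h3 : K ^ 2 * v ^ 2 ≤ u ^ 2 / 4) :
    Yk ≤ (4 * M + M') * u ^ 2 := by
  have h4 : K ^ 2 * Yp ≤ (4 * M + M') * (u ^ 2 / 4) := by
    calc K ^ 2 * Yp ≤ K ^ 2 * ((4 * M + M') * v ^ 2) := mul_le_mul_of_nonneg_left h2 (sq_nonneg K)
      _ = (4 * M + M') * (K ^ 2 * v ^ 2) := by ring
      _ ≤ _ := mul_le_mul_of_nonneg_left h3 (by linarith)
  have h5 : 0 ≤ M' * u ^ 2 := mul_nonneg hM' (sq_nonneg u)
  have h6 : 0 ≤ M * u ^ 2 := mul_nonneg hM (sq_nonneg u)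
  linarith

namespace Sys

variable (s : Sys ε CN CR C C' C'' r p S Nr U J V R)

include s

lemma U_sub {k : ℕ} (h : p ≤ k) : U (k - p) * r ^ p = U k := by
  have h1 : ∀ i j : ℕ, U (i + j) = r ^ j * U i := by
    intro i j
    induction j with
    | zero => simp
    | succ j ih => rw [← add_assoc, s.U_succ, ih, pow_succ]; ring
  have := h1 (k - p) p
  rw [Nat.sub_add_cancel h] at this
  rw [this]; ring

lemma U_mono (hr : 1 ≤ r) {i k : ℕ} (h : i ≤ k) : U i ≤ U k := by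
  induction k, h using Nat.le_induction with
  | base => exact le_rfl
  | succ k _ ih =>
    rw [s.U_succ]
    have := s.U_pos k
    nlinarith

lemma sum_U (hr : 1 < r) (k : ℕ) : ∑ i ∈ Finset.range (k + 1), U i ≤ r / (r - 1) * U k := by
  have h1 : (1 : ℝ) ≤ r / (r - 1) := by
    rw [le_div_iff₀ (by linarith)]; linarith
  induction k with
  | zero =>
    simp only [zero_add, Finset.range_one, Finset.sum_singleton]
    have := s.U_pos 0
    nlinarith
  | succ k ih =>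
    rw [Finset.sum_range_succ]
    have h2 : r / (r - 1) * U k + U (k + 1) = r / (r - 1) * U (k + 1) := by
      rw [s.U_succ]
      have : r - 1 ≠ 0 := by linarith
      field_simp
      ring
    linarith

lemma sum_U_sq (hr : 1 < r) (k : ℕ) :
    ∑ i ∈ Finset.range (k + 1), U i ^ 2 ≤ r / (r - 1) * U k ^ 2 := by
  calc ∑ i ∈ Finset.range (k + 1), U i ^ 2 ≤ ∑ i ∈ Finset.range (k + 1), U k * U i := by
        refine Finset.sum_le_sum fun i hi => ?_
        rw [sq]
        exact mul_le_mul_of_nonneg_right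
          (s.U_mono hr.le (by simpa [Nat.lt_succ_iff] using Finset.mem_range.1 hi)) (s.U_pos i).le
    _ = U k * ∑ i ∈ Finset.range (k + 1), U i := by rw [Finset.mul_sum]
    _ ≤ U k * (r / (r - 1) * U k) := mul_le_mul_of_nonneg_left (s.sum_U hr k) (s.U_pos k).le
    _ = _ := by ring

lemma wk_var (hε : 0 < ε) (hr : 1 ≤ r) (hCN : 0 ≤ CN) {k : ℕ} (hk : k ≤ J) :
    ∀ G ∈ S, ∀ G' ∈ S, Nr G G' → |wk ε V k G' - wk ε V k G| ≤ CN / ε * U k := by
  intro G hG G' hG' hN
  have := wk_lip (V := V) hε (k := k) (G := G) (G' := G') (b := CN * U k) (fun i hi =>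
    (s.near i (hi.trans hk) G hG G' hG' hN).trans
      (mul_le_mul_of_nonneg_left (s.U_mono hr hi) hCN))
  calc _ ≤ _ := this
    _ = _ := by ring

lemma exit_avg (hε : 0 < ε) {k : ℕ} (hk : k ≤ J) (m : ℕ) :
    prob S (fun G => wk ε V k G ≠ 1) ≤ (ε ^ m)⁻¹ * (avg S (fun G => V 0 G ^ m) +
      2 * ∑ i ∈ Finset.range (k + 1), avg S (fun G => wk ε V i G * V i G ^ m)) := by
  classical
  have h1 : avg S (fun G => (ε ^ m)⁻¹ * (V 0 G ^ m + 2 * ∑ i ∈ Finset.range (k + 1),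
      wk ε V i G * V i G ^ m)) = (ε ^ m)⁻¹ * (avg S (fun G => V 0 G ^ m) +
      2 * ∑ i ∈ Finset.range (k + 1), avg S (fun G => wk ε V i G * V i G ^ m)) := by
    rw [avg_const_mul', avg_add, avg_const_mul', avg_sum']
  rw [← h1]
  unfold prob
  refine avg_mono fun G hG => ?_
  have h0 : 0 ≤ (ε ^ m)⁻¹ * (V 0 G ^ m + 2 * ∑ i ∈ Finset.range (k + 1),
      wk ε V i G * V i G ^ m) := by
    refine mul_nonneg (by positivity) (add_nonneg (pow_nonneg (s.V_nonneg 0 G) m)
      (mul_nonneg (by norm_num) (Finset.sum_nonneg fun i _ => mul_nonneg (wk_nonneg i G)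
        (pow_nonneg (s.V_nonneg i G) m))))
  split_ifs with h
  · have := exit hε s.V_nonneg (k := k) (G := G)
      (fun i hi => s.cont i (lt_of_lt_of_le hi hk) G hG) m h
    refine this.trans (le_of_eq ?_)
    have e1 : ∀ x : ℝ, (x / ε) ^ m = (ε ^ m)⁻¹ * x ^ m := fun x => by rw [div_pow]; ring
    simp only [e1]
    rw [mul_add, Finset.mul_sum, Finset.mul_sum, Finset.mul_sum]
    refine congrArg₂ _ rfl (Finset.sum_congr rfl fun i _ => ?_)
    ring
  · exact h0

/-! ### First moment -/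

omit s in
lemma avg_wk_le_one (k : ℕ) : avg S (wk ε V k) ≤ 1 := avg_le_one fun G _ => wk_le_one k G

lemma avg_R_le_one (k : ℕ) : avg S (R k) ≤ 1 := avg_le_one fun G _ => s.R_le k G

lemma X_le (hε : 0 < ε) (hr : 1 ≤ r) (hCN : 0 ≤ CN) (hC' : 0 ≤ C') (hC'' : 0 ≤ C'')
    (hC : 0 ≤ C) (hH : 2 * C ≤ r ^ p) {k : ℕ} (hk : k ≤ J) :
    avg S (fun G => wk ε V k G * R k G) ≤ 4 * (C' + C'') * (1 + CN / ε) * U k := by
  induction k using Nat.strong_induction_on with
  | _ k ih =>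
    have hU := s.U_pos k
    have hB : 0 ≤ CN / ε := by positivity
    have h1 : avg S (wk ε V k) + avg S (R k) ≤ 2 := by
      linarith [s.avg_R_le_one k, avg_wk_le_one (S := S) (ε := ε) (V := V) k]
    rcases lt_or_ge k p with hp | hp
    · have h2 := s.BS k hk hp (CN / ε) hB (wk ε V k) (wk_nonneg k) (s.wk_var hε hr hCN hk)
      refine h2.trans ?_
      have : C'' * (1 + CN / ε) * (avg S (wk ε V k) + avg S (R k)) * U k ≤
          C'' * (1 + CN / ε) * 2 * U k :=
        mul_le_mul_of_nonneg_right (mul_le_mul_of_nonneg_left h1 (by positivity)) hU.le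
      have h3 : 0 ≤ (4 * C' + 2 * C'') * (1 + CN / ε) * U k := by positivity
      nlinarith
    · rcases Nat.eq_zero_or_pos p with hp0 | hp0
      · subst hp0
        have h2 := s.OS k hk hp (CN / ε) hB (wk ε V k) (wk_nonneg k) (s.wk_var hε hr hCN hk)
          (fun G _ h => wk_ne_zero hε h)
        rw [Nat.sub_zero] at h2
        have h4 : 0 ≤ avg S (fun G => wk ε V k G * R k G) :=
          avg_nonneg fun G _ => mul_nonneg (wk_nonneg k G) (s.R_nonneg k G)
        have h5 : C ≤ 1 / 2 := by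
          rw [pow_zero] at hH; linarith
        have h6 : C * avg S (fun G => wk ε V k G * R k G) ≤
            1 / 2 * avg S (fun G => wk ε V k G * R k G) := mul_le_mul_of_nonneg_right h5 h4
        have : C' * (1 + CN / ε) * (avg S (wk ε V k) + avg S (R k)) * U k ≤
            C' * (1 + CN / ε) * 2 * U k :=
          mul_le_mul_of_nonneg_right (mul_le_mul_of_nonneg_left h1 (by positivity)) hU.le
        have h3 : 0 ≤ (4 * C'') * (1 + CN / ε) * U k := by positivity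
        nlinarith
      · have h2 := s.OS k hk hp (CN / ε) hB (wk ε V k) (wk_nonneg k) (s.wk_var hε hr hCN hk)
          (fun G _ h => wk_ne_zero hε h)
        have h4 : avg S (fun G => wk ε V k G * R (k - p) G) ≤
            4 * (C' + C'') * (1 + CN / ε) * U (k - p) := by
          refine (avg_mono fun G _ => ?_).trans (ih (k - p) (by omega) (by omega))
          exact mul_le_mul_of_nonneg_right (wk_anti (by omega) G) (s.R_nonneg _ G)
        have h5 := s.U_sub hp
        have h6 := s.U_pos (k - p)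
        have : C' * (1 + CN / ε) * (avg S (wk ε V k) + avg S (R k)) * U k ≤
            C' * (1 + CN / ε) * 2 * U k :=
          mul_le_mul_of_nonneg_right (mul_le_mul_of_nonneg_left h1 (by positivity)) hU.le
        have h7 : C * avg S (fun G => wk ε V k G * R (k - p) G) ≤
            4 * (C' + C'') * (1 + CN / ε) * (C * U (k - p)) := by
          calc _ ≤ C * (4 * (C' + C'') * (1 + CN / ε) * U (k - p)) :=
                mul_le_mul_of_nonneg_left h4 hC
            _ = _ := by ring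
        have h8 : C * U (k - p) ≤ U k / 2 := by
          rw [← h5]
          nlinarith
        have h9 : 4 * (C' + C'') * (1 + CN / ε) * (C * U (k - p)) ≤
            4 * (C' + C'') * (1 + CN / ε) * (U k / 2) :=
          mul_le_mul_of_nonneg_left h8 (by positivity)
        have h3 : 0 ≤ (2 * C'') * (1 + CN / ε) * U k := by positivity
        nlinarith

/-- `E[w_k V_k] ≤ D U_k`. -/
lemma wV_le {A₁ : ℝ} (hCR : 0 ≤ CR) {k : ℕ} (hk : k ≤ J)
    (hX : avg S (fun G => wk ε V k G * R k G) ≤ A₁ * U k) :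
    avg S (fun G => wk ε V k G * V k G) ≤ CR * (A₁ + 1) * U k := by
  have hU := s.U_pos k
  calc avg S (fun G => wk ε V k G * V k G)
      ≤ avg S (fun G => CR * (wk ε V k G * R k G + U k * wk ε V k G)) := by
        refine avg_mono fun G hG => ?_
        have h1 := s.RV2 k hk G hG
        have h2 := mul_le_mul_of_nonneg_left h1 (wk_nonneg (ε := ε) (V := V) k G)
        refine h2.trans (le_of_eq ?_)
        ring
    _ = CR * (avg S (fun G => wk ε V k G * R k G) + U k * avg S (wk ε V k)) := by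
        rw [avg_const_mul', avg_add, avg_const_mul']
    _ ≤ CR * (A₁ * U k + U k * 1) := by
        refine mul_le_mul_of_nonneg_left (add_le_add hX ?_) hCR
        exact mul_le_mul_of_nonneg_left (avg_le_one fun G _ => wk_le_one k G) hU.le
    _ = _ := by ring

lemma R0_le (hp : 0 < p) (hC'' : 0 ≤ C'') : avg S (R 0) ≤ 2 * C'' * U 0 := by
  have h := s.BS 0 (Nat.zero_le _) hp 0 le_rfl (fun _ => 1) (fun _ => zero_le_one)
    (fun G _ G' _ _ => by simp)
  simp only [one_mul] at h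
  have h1 : avg S (fun _ : α => (1 : ℝ)) ≤ 1 := avg_le_one fun _ _ => le_rfl
  have h2 := s.avg_R_le_one 0
  have hU := s.U_pos 0
  have h3 : C'' * (1 + 0) * (avg S (fun _ : α => (1 : ℝ)) + avg S (R 0)) * U 0 ≤
      C'' * (1 + 0) * 2 * U 0 :=
    mul_le_mul_of_nonneg_right (mul_le_mul_of_nonneg_left (by linarith) (by linarith)) hU.le
  calc _ ≤ _ := h
    _ ≤ _ := h3
    _ = _ := by ring

lemma V0_le (hp : 0 < p) (hC'' : 0 ≤ C'') (hCR : 0 ≤ CR) :
    avg S (V 0) ≤ CR * (2 * C'' + 1) * U 0 := by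
  have hU := s.U_pos 0
  calc avg S (V 0) ≤ avg S (fun G => CR * (R 0 G + U 0)) :=
        avg_mono fun G hG => s.RV2 0 (Nat.zero_le _) G hG
    _ = CR * (avg S (R 0) + avg S (fun _ => U 0)) := by rw [avg_const_mul', avg_add]
    _ ≤ CR * (2 * C'' * U 0 + U 0) :=
        mul_le_mul_of_nonneg_left (add_le_add (s.R0_le hp hC'') (avg_const_le S hU.le)) hCR
    _ = _ := by ring

lemma FM {A₁ : ℝ} (hε : 0 < ε) (hr : 1 < r) (hC'' : 0 ≤ C'') (hCR : 0 ≤ CR) (hp : 0 < p)
    (hA₁ : 0 ≤ A₁)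
    (hX : ∀ k ≤ J, avg S (fun G => wk ε V k G * R k G) ≤ A₁ * U k) {k : ℕ} (hk : k ≤ J) :
    avg S (R k) ≤
      (A₁ + ε⁻¹ * (CR * (2 * C'' + 1) + 2 * (CR * (A₁ + 1) * (r / (r - 1))))) * U k := by
  classical
  have hU := s.U_pos k
  have h1 : avg S (R k) ≤ avg S (fun G => wk ε V k G * R k G) +
      prob S (fun G => wk ε V k G ≠ 1) := by
    unfold prob
    rw [← avg_add]
    refine avg_mono fun G _ => ?_
    split_ifs with h
    · have h2 : 0 ≤ wk ε V k G * R k G := mul_nonneg (wk_nonneg k G) (s.R_nonneg k G)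
      linarith [s.R_le k G]
    · push Not at h
      rw [h]; simp
  have h2 := s.exit_avg hε hk 1
  simp only [pow_one] at h2
  have h3 : ∑ i ∈ Finset.range (k + 1), avg S (fun G => wk ε V i G * V i G) ≤
      CR * (A₁ + 1) * (r / (r - 1) * U k) := by
    calc _ ≤ ∑ i ∈ Finset.range (k + 1), CR * (A₁ + 1) * U i := by
          refine Finset.sum_le_sum fun i hi => ?_
          have hi' : i ≤ J := (Nat.lt_succ_iff.1 (Finset.mem_range.1 hi)).trans hk
          exact s.wV_le hCR hi' (hX i hi')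
      _ = CR * (A₁ + 1) * ∑ i ∈ Finset.range (k + 1), U i := by rw [Finset.mul_sum]
      _ ≤ _ := mul_le_mul_of_nonneg_left (s.sum_U hr k) (by positivity)
  have h4 : avg S (fun G => V 0 G) ≤ CR * (2 * C'' + 1) * U k :=
    (s.V0_le hp hC'' hCR).trans
      (mul_le_mul_of_nonneg_left (s.U_mono hr.le (Nat.zero_le k)) (by positivity))
  have h5 : ε⁻¹ * (avg S (fun G => V 0 G) + 2 * ∑ i ∈ Finset.range (k + 1),
      avg S (fun G => wk ε V i G * V i G)) ≤
      ε⁻¹ * (CR * (2 * C'' + 1) * U k + 2 * (CR * (A₁ + 1) * (r / (r - 1) * U k))) :=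
    mul_le_mul_of_nonneg_left (add_le_add h4 (mul_le_mul_of_nonneg_left h3 (by norm_num)))
      (by positivity)
  calc avg S (R k) ≤ _ := h1
    _ ≤ A₁ * U k + ε⁻¹ * (CR * (2 * C'' + 1) * U k + 2 * (CR * (A₁ + 1) * (r / (r - 1) * U k))) :=
        add_le_add (hX k hk) (h2.trans h5)
    _ = _ := by ring

/-! ### Second moment -/

lemma wV_var (hε : 0 < ε) (hr : 1 ≤ r) (hCN : 0 ≤ CN) {k : ℕ} (hk : k ≤ J) :
    ∀ G ∈ S, ∀ G' ∈ S, Nr G G' →
      |wk ε V k G' * V k G' - wk ε V k G * V k G| ≤ (CN / ε + CN) * U k := by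
  intro G hG G' hG' hN
  have h1 := s.wk_var hε hr hCN hk G hG G' hG' hN
  have h2 := s.near k hk G hG G' hG' hN
  calc |wk ε V k G' * V k G' - wk ε V k G * V k G|
      = |(wk ε V k G' - wk ε V k G) * V k G' + wk ε V k G * (V k G' - V k G)| := by
        congr 1; ring
    _ ≤ |(wk ε V k G' - wk ε V k G) * V k G'| + |wk ε V k G * (V k G' - V k G)| := abs_add_le _ _
    _ = |wk ε V k G' - wk ε V k G| * V k G' + wk ε V k G * |V k G' - V k G| := by
        rw [abs_mul, abs_mul, abs_of_nonneg (s.V_nonneg k G'), abs_of_nonneg (wk_nonneg k G)]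
    _ ≤ CN / ε * U k * 1 + 1 * (CN * U k) := by
        refine add_le_add (mul_le_mul h1 (s.V_le k G') (s.V_nonneg k G') ?_)
          (mul_le_mul (wk_le_one k G) h2 (abs_nonneg _) zero_le_one)
        have := s.U_pos k
        positivity
    _ = _ := by ring

/-- One step for the second moment, from `E[w V R]`. -/
lemma Y_le {k : ℕ} (hk : k ≤ J) (hCR : 0 ≤ CR) {D Q : ℝ}
    (hD : avg S (fun G => wk ε V k G * V k G) ≤ D * U k)
    (hQ : avg S (fun G => wk ε V k G * V k G * R k G) ≤ Q) :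
    avg S (fun G => wk ε V k G * V k G ^ 2) ≤ CR * (Q + D * U k ^ 2) := by
  have hU := s.U_pos k
  calc avg S (fun G => wk ε V k G * V k G ^ 2)
      ≤ avg S (fun G => CR * (wk ε V k G * V k G * R k G + U k * (wk ε V k G * V k G))) := by
        refine avg_mono fun G hG => ?_
        have h1 := s.RV2 k hk G hG
        have h2 := mul_le_mul_of_nonneg_left h1
          (mul_nonneg (wk_nonneg (ε := ε) (V := V) k G) (s.V_nonneg k G))
        calc _ = wk ε V k G * V k G * V k G := by ring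
          _ ≤ _ := h2
          _ = _ := by ring
    _ = CR * (avg S (fun G => wk ε V k G * V k G * R k G) +
          U k * avg S (fun G => wk ε V k G * V k G)) := by
        rw [avg_const_mul', avg_add, avg_const_mul']
    _ ≤ CR * (Q + U k * (D * U k)) :=
        mul_le_mul_of_nonneg_left (add_le_add hQ (mul_le_mul_of_nonneg_left hD hU.le)) hCR
    _ = _ := by ring

lemma Y_bound {A₁ AF : ℝ} (hε : 0 < ε) (hr : 1 ≤ r) (hCN : 0 ≤ CN) (hC : 1 ≤ C) (hC' : 0 ≤ C')
    (hC'' : 0 ≤ C'') (hCR : 1 ≤ CR) (hp : 0 < p) (hH : 2 * (CR ^ 2 * C) ≤ r ^ p)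
    (hA₁ : 0 ≤ A₁) (hAF : 0 ≤ AF)
    (hX : ∀ k ≤ J, avg S (fun G => wk ε V k G * R k G) ≤ A₁ * U k)
    (hF : ∀ k ≤ J, avg S (R k) ≤ AF * U k) {k : ℕ} (hk : k ≤ J) :
    avg S (fun G => wk ε V k G * V k G ^ 2) ≤
      (4 * (CR ^ 2 * C * (CR * (A₁ + 1)) + CR * C' * (1 + (CN / ε + CN)) * (CR * (A₁ + 1) + AF) +
        CR * (CR * (A₁ + 1))) +
      CR * (C'' * (1 + (CN / ε + CN)) * (CR * (A₁ + 1) + AF) + CR * (A₁ + 1))) * U k ^ 2 := by
  set D := CR * (A₁ + 1) with hD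
  set B := CN / ε + CN with hB
  have hD0 : 0 ≤ D := by positivity
  have hB0 : 0 ≤ B := by positivity
  have hCR0 : 0 ≤ CR := by linarith
  have hC0 : 0 ≤ C := by linarith
  set K := CR ^ 2 * C with hK
  have hK1 : 1 ≤ K := by
    have : 1 ≤ CR ^ 2 := one_le_pow₀ hCR
    nlinarith
  set M := K * D + CR * C' * (1 + B) * (D + AF) + CR * D with hM
  have hM0 : 0 ≤ M := by positivity
  set M' := CR * (C'' * (1 + B) * (D + AF) + D) with hM'
  have hM'0 : 0 ≤ M' := by positivity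
  induction k using Nat.strong_induction_on with
  | _ k ih =>
    have hU := s.U_pos k
    have hwV : avg S (fun G => wk ε V k G * V k G) ≤ D * U k := s.wV_le hCR0 hk (hX k hk)
    have hw0 : ∀ G, 0 ≤ wk ε V k G * V k G := fun G => mul_nonneg (wk_nonneg k G) (s.V_nonneg k G)
    have hsum : avg S (fun G => wk ε V k G * V k G) + avg S (R k) ≤ (D + AF) * U k := by
      have := hF k hk
      linarith
    rcases lt_or_ge k p with hkp | hkp
    · have h2 := s.BS k hk hkp B hB0 (fun G => wk ε V k G * V k G) hw0 (s.wV_var hε hr hCN hk)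
      have h3 : C'' * (1 + B) * (avg S (fun G => wk ε V k G * V k G) + avg S (R k)) * U k ≤
          C'' * (1 + B) * ((D + AF) * U k) * U k :=
        mul_le_mul_of_nonneg_right (mul_le_mul_of_nonneg_left hsum (by positivity)) hU.le
      have h4 := s.Y_le hk hCR0 hwV (h2.trans h3)
      have h5 : CR * (C'' * (1 + B) * ((D + AF) * U k) * U k + D * U k ^ 2) = M' * U k ^ 2 := by
        rw [hM']; ring
      have h6 : 0 ≤ 4 * M * U k ^ 2 := by positivity
      linarith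
    · have h2 := s.OS k hk hkp B hB0 (fun G => wk ε V k G * V k G) hw0 (s.wV_var hε hr hCN hk)
        (fun G _ h => wk_ne_zero hε (left_ne_zero_of_mul h))
      have h3 : C' * (1 + B) * (avg S (fun G => wk ε V k G * V k G) + avg S (R k)) * U k ≤
          C' * (1 + B) * ((D + AF) * U k) * U k :=
        mul_le_mul_of_nonneg_right (mul_le_mul_of_nonneg_left hsum (by positivity)) hU.le
      have hkp' : k - p ≤ J := by omega
      have hUp := s.U_pos (k - p)
      have hUle : U (k - p) ≤ U k := s.U_mono hr (by omega)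
      set Yk := avg S (fun G => wk ε V k G * V k G ^ 2) with hYk
      set Yp := avg S (fun G => wk ε V (k - p) G * V (k - p) G ^ 2) with hYp
      have h4 : avg S (fun G => wk ε V k G * V k G * R (k - p) G) ≤
          CR * ((2 * K)⁻¹ * Yk + K / 2 * Yp + D * U k ^ 2) := by
        calc avg S (fun G => wk ε V k G * V k G * R (k - p) G)
            ≤ avg S (fun G => CR * ((2 * K)⁻¹ * (wk ε V k G * V k G ^ 2) +
                K / 2 * (wk ε V (k - p) G * V (k - p) G ^ 2) +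
                U k * (wk ε V k G * V k G))) := by
              refine avg_mono fun G hG => ?_
              have h5 := s.RV1 (k - p) hkp' G hG
              have h6 := mul_le_mul_of_nonneg_left h5 (hw0 G)
              refine h6.trans ?_
              have h7 : wk ε V k G * V k G * V (k - p) G ≤
                  (2 * K)⁻¹ * (wk ε V k G * V k G ^ 2) +
                  K / 2 * (wk ε V (k - p) G * V (k - p) G ^ 2) := by
                have h8 : V k G * V (k - p) G ≤ (2 * K)⁻¹ * V k G ^ 2 + K / 2 * V (k - p) G ^ 2 := by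
                  have h9 : 0 ≤ (2 * K)⁻¹ * (V k G - K * V (k - p) G) ^ 2 := by positivity
                  have h10 : (2 * K)⁻¹ * (V k G - K * V (k - p) G) ^ 2 =
                      (2 * K)⁻¹ * V k G ^ 2 + K / 2 * V (k - p) G ^ 2 - V k G * V (k - p) G := by
                    have : K ≠ 0 := by linarith
                    field_simp
                    ring
                  linarith
                have h11 := mul_le_mul_of_nonneg_left h8 (wk_nonneg (ε := ε) (V := V) k G)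
                have h12 : wk ε V k G * (K / 2 * V (k - p) G ^ 2) ≤
                    wk ε V (k - p) G * (K / 2 * V (k - p) G ^ 2) :=
                  mul_le_mul_of_nonneg_right (wk_anti (by omega) G) (by positivity)
                calc wk ε V k G * V k G * V (k - p) G = wk ε V k G * (V k G * V (k - p) G) := by ring
                  _ ≤ _ := h11
                  _ = (2 * K)⁻¹ * (wk ε V k G * V k G ^ 2) +
                      wk ε V k G * (K / 2 * V (k - p) G ^ 2) := by ring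
                  _ ≤ (2 * K)⁻¹ * (wk ε V k G * V k G ^ 2) +
                      wk ε V (k - p) G * (K / 2 * V (k - p) G ^ 2) := by linarith
                  _ = _ := by ring
              have h13 : U (k - p) * (wk ε V k G * V k G) ≤ U k * (wk ε V k G * V k G) :=
                mul_le_mul_of_nonneg_right hUle (hw0 G)
              calc wk ε V k G * V k G * (CR * (V (k - p) G + U (k - p)))
                  = CR * (wk ε V k G * V k G * V (k - p) G + U (k - p) * (wk ε V k G * V k G)) := by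
                    ring
                _ ≤ _ := mul_le_mul_of_nonneg_left (add_le_add h7 h13) hCR0
          _ = CR * ((2 * K)⁻¹ * Yk + K / 2 * Yp + U k * avg S (fun G => wk ε V k G * V k G)) := by
              rw [avg_const_mul', avg_add, avg_add, avg_const_mul', avg_const_mul', avg_const_mul']
          _ ≤ CR * ((2 * K)⁻¹ * Yk + K / 2 * Yp + U k * (D * U k)) := by
              refine mul_le_mul_of_nonneg_left ?_ hCR0
              have := mul_le_mul_of_nonneg_left hwV hU.le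
              linarith
          _ = _ := by ring
      have h5 : avg S (fun G => wk ε V k G * V k G * R k G) ≤
          C * (CR * ((2 * K)⁻¹ * Yk + K / 2 * Yp + D * U k ^ 2)) +
            C' * (1 + B) * ((D + AF) * U k) * U k :=
        h2.trans (add_le_add (mul_le_mul_of_nonneg_left h4 hC0) h3)
      have h6 := s.Y_le hk hCR0 hwV h5
      have h7 : CR * (C * (CR * ((2 * K)⁻¹ * Yk + K / 2 * Yp + D * U k ^ 2)) +
            C' * (1 + B) * ((D + AF) * U k) * U k + D * U k ^ 2) =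
          K * (2 * K)⁻¹ * Yk + K ^ 2 / 2 * Yp + M * U k ^ 2 := by
        rw [hM, hK]; ring
      have h8 : K * (2 * K)⁻¹ = 1 / 2 := by
        have : K ≠ 0 := by linarith
        field_simp
      rw [← hYk, h7, h8] at h6
      have h9 : Yp ≤ (4 * M + M') * U (k - p) ^ 2 := ih (k - p) (by omega) hkp'
      exact arith2 hM0 hM'0 h6 h9 (arith1 (by linarith) hUp.le hH (s.U_sub hkp))

lemma V0sq_le (hCN : 0 ≤ CN) (hC'' : 0 ≤ C'') (hCR : 0 ≤ CR) (hp : 0 < p) :
    avg S (fun G => V 0 G ^ 2) ≤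
      CR * (C'' * (1 + CN) * (CR * (2 * C'' + 1) + 2 * C'') + CR * (2 * C'' + 1)) * U 0 ^ 2 := by
  have hU := s.U_pos 0
  have h1 := s.V0_le hp hC'' hCR
  have h2 := s.R0_le hp hC''
  have h3 := s.BS 0 (Nat.zero_le _) hp CN hCN (V 0) (s.V_nonneg 0) (s.near 0 (Nat.zero_le _))
  have h4 : C'' * (1 + CN) * (avg S (V 0) + avg S (R 0)) * U 0 ≤
      C'' * (1 + CN) * ((CR * (2 * C'' + 1) + 2 * C'') * U 0) * U 0 :=
    mul_le_mul_of_nonneg_right (mul_le_mul_of_nonneg_left (by linarith) (by positivity)) hU.le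
  calc avg S (fun G => V 0 G ^ 2)
      ≤ avg S (fun G => CR * (V 0 G * R 0 G + U 0 * V 0 G)) := by
        refine avg_mono fun G hG => ?_
        have h1 := s.RV2 0 (Nat.zero_le _) G hG
        have h2 := mul_le_mul_of_nonneg_left h1 (s.V_nonneg 0 G)
        calc _ = V 0 G * V 0 G := by ring
          _ ≤ _ := h2
          _ = _ := by ring
    _ = CR * (avg S (fun G => V 0 G * R 0 G) + U 0 * avg S (V 0)) := by
        rw [avg_const_mul', avg_add, avg_const_mul']
    _ ≤ CR * (C'' * (1 + CN) * ((CR * (2 * C'' + 1) + 2 * C'') * U 0) * U 0 +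
          U 0 * (CR * (2 * C'' + 1) * U 0)) :=
        mul_le_mul_of_nonneg_left (add_le_add (h3.trans h4)
          (mul_le_mul_of_nonneg_left h1 hU.le)) hCR
    _ = _ := by ring

lemma SM {A5 A7 : ℝ} (hε : 0 < ε) (hr : 1 < r) (hA5 : 0 ≤ A5) (hA7 : 0 ≤ A7)
    (hY : ∀ k ≤ J, avg S (fun G => wk ε V k G * V k G ^ 2) ≤ A5 * U k ^ 2)
    (h0 : avg S (fun G => V 0 G ^ 2) ≤ A7 * U 0 ^ 2) {k : ℕ} (hk : k ≤ J) :
    avg S (fun G => V k G ^ 2) ≤
      (A5 + (ε ^ 2)⁻¹ * (A7 + 2 * (A5 * (r / (r - 1))))) * U k ^ 2 := by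
  classical
  have hU := s.U_pos k
  have h1 : avg S (fun G => V k G ^ 2) ≤ avg S (fun G => wk ε V k G * V k G ^ 2) +
      prob S (fun G => wk ε V k G ≠ 1) := by
    unfold prob
    rw [← avg_add]
    refine avg_mono fun G _ => ?_
    split_ifs with h
    · have h2 : 0 ≤ wk ε V k G * V k G ^ 2 := mul_nonneg (wk_nonneg k G) (sq_nonneg _)
      have h3 : V k G ^ 2 ≤ 1 := pow_le_one₀ (s.V_nonneg k G) (s.V_le k G)
      linarith
    · push Not at h
      rw [h]; simp
  have h2 := s.exit_avg hε hk 2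
  have h3 : ∑ i ∈ Finset.range (k + 1), avg S (fun G => wk ε V i G * V i G ^ 2) ≤
      A5 * (r / (r - 1) * U k ^ 2) := by
    calc _ ≤ ∑ i ∈ Finset.range (k + 1), A5 * U i ^ 2 := by
          refine Finset.sum_le_sum fun i hi => ?_
          have hi' : i ≤ J := (Nat.lt_succ_iff.1 (Finset.mem_range.1 hi)).trans hk
          exact hY i hi'
      _ = A5 * ∑ i ∈ Finset.range (k + 1), U i ^ 2 := by rw [Finset.mul_sum]
      _ ≤ _ := mul_le_mul_of_nonneg_left (s.sum_U_sq hr k) hA5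
  have h4 : avg S (fun G => V 0 G ^ 2) ≤ A7 * U k ^ 2 :=
    h0.trans (mul_le_mul_of_nonneg_left
      (pow_le_pow_left₀ (s.U_pos 0).le (s.U_mono hr.le (Nat.zero_le k)) 2) hA7)
  have h5 : (ε ^ 2)⁻¹ * (avg S (fun G => V 0 G ^ 2) + 2 * ∑ i ∈ Finset.range (k + 1),
      avg S (fun G => wk ε V i G * V i G ^ 2)) ≤
      (ε ^ 2)⁻¹ * (A7 * U k ^ 2 + 2 * (A5 * (r / (r - 1) * U k ^ 2))) :=
    mul_le_mul_of_nonneg_left (add_le_add h4 (mul_le_mul_of_nonneg_left h3 (by norm_num)))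
      (by positivity)
  calc avg S (fun G => V k G ^ 2) ≤ _ := h1
    _ ≤ A5 * U k ^ 2 + (ε ^ 2)⁻¹ * (A7 * U k ^ 2 + 2 * (A5 * (r / (r - 1) * U k ^ 2))) :=
        add_le_add (hY k hk) (h2.trans h5)
    _ = _ := by ring

end Sys

/-- **Scale induction.** -/
theorem main (ε CN CR C C' C'' r : ℝ) (p : ℕ) (hε : 0 < ε) (hr : 1 < r) (hCN : 0 ≤ CN)
    (hC : 1 ≤ C) (hC' : 0 ≤ C') (hC'' : 0 ≤ C'') (hCR : 1 ≤ CR) (hp : 0 < p)
    (hH : 2 * (CR ^ 2 * C) ≤ r ^ p) :
    ∃ A : ℝ, 1 ≤ A ∧ ∀ (α : Type) (S : Finset α) (Nr : α → α → Prop) (U : ℕ → ℝ) (J : ℕ)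
      (V R : ℕ → α → ℝ), Sys ε CN CR C C' C'' r p S Nr U J V R → ∀ k ≤ J,
      avg S (R k) ≤ A * U k ∧ avg S (fun G => V k G ^ 2) ≤ A * U k ^ 2 := by
  have hr1 : 0 < r - 1 := by linarith
  have hH' : 2 * C ≤ r ^ p := by
    have : 1 ≤ CR ^ 2 := one_le_pow₀ hCR
    nlinarith
  obtain ⟨A₁, hA₁, hA₁0⟩ : ∃ A₁, A₁ = 4 * (C' + C'') * (1 + CN / ε) ∧ 0 ≤ A₁ :=
    ⟨_, rfl, by positivity⟩
  obtain ⟨AF, hAF, hAF0⟩ : ∃ AF, AF =
      A₁ + ε⁻¹ * (CR * (2 * C'' + 1) + 2 * (CR * (A₁ + 1) * (r / (r - 1)))) ∧ 0 ≤ AF :=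
    ⟨_, rfl, by positivity⟩
  obtain ⟨A5, hA5, hA50⟩ : ∃ A5, A5 = (4 * (CR ^ 2 * C * (CR * (A₁ + 1)) +
        CR * C' * (1 + (CN / ε + CN)) * (CR * (A₁ + 1) + AF) + CR * (CR * (A₁ + 1))) +
      CR * (C'' * (1 + (CN / ε + CN)) * (CR * (A₁ + 1) + AF) + CR * (A₁ + 1))) ∧ 0 ≤ A5 :=
    ⟨_, rfl, by positivity⟩
  obtain ⟨A7, hA7, hA70⟩ : ∃ A7, A7 =
      CR * (C'' * (1 + CN) * (CR * (2 * C'' + 1) + 2 * C'') + CR * (2 * C'' + 1)) ∧ 0 ≤ A7 :=
    ⟨_, rfl, by positivity⟩
  obtain ⟨A8, hA8, hA80⟩ : ∃ A8, A8 = A5 + (ε ^ 2)⁻¹ * (A7 + 2 * (A5 * (r / (r - 1)))) ∧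
      0 ≤ A8 := ⟨_, rfl, by positivity⟩
  refine ⟨1 + AF + A8, by linarith, fun α S Nr U J V R s k hk => ?_⟩
  have hU := s.U_pos k
  have hX : ∀ k ≤ J, avg S (fun G => wk ε V k G * R k G) ≤ A₁ * U k := fun k hk =>
    hA₁ ▸ s.X_le hε hr.le hCN hC' hC'' (by linarith) hH' hk
  have hF : ∀ k ≤ J, avg S (R k) ≤ AF * U k := fun k hk =>
    hAF ▸ s.FM hε hr hC'' (by linarith) hp hA₁0 hX hk
  have hY : ∀ k ≤ J, avg S (fun G => wk ε V k G * V k G ^ 2) ≤ A5 * U k ^ 2 := fun k hk =>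
    hA5 ▸ s.Y_bound hε hr.le hCN hC hC' hC'' hCR hp hH hA₁0 hAF0 hX hF hk
  have h0 : avg S (fun G => V 0 G ^ 2) ≤ A7 * U 0 ^ 2 :=
    hA7 ▸ s.V0sq_le hCN hC'' (by linarith) hp
  have h8 := s.SM hε hr hA50 hA70 hY h0 hk
  rw [← hA8] at h8
  refine ⟨(hF k hk).trans ?_, h8.trans ?_⟩
  · exact mul_le_mul_of_nonneg_right (by linarith) hU.le
  · exact mul_le_mul_of_nonneg_right (by linarith) (sq_nonneg _)

end

end Vale.Agent.P156.FE.Ind
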