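import Vale.Agent.P156.FE.Spec2
import Vale.Agent.P156.FE.IndAbs
import Vale.Agent.P156.B.Samp

/-! # Fixed energy upgrade, block FE10: first and second moments at all scales -/

open Finset

namespace Vale.Agent.P156.FE

open Vale.Agent.P156 Vale.Agent.P156.H737

noncomputable section

lemma rho_nonneg {n d K : ℕ} (ω : SimpleGraph (Fin n) × StarPos n d K) (z : ℂ) : 0 ≤ rho ω z :=
  le_min zero_le_one (Finset.sum_nonneg fun _ _ => Finset.sum_nonneg fun _ _ => sq_nonneg _)

lemma rho_le_one {n d K : ℕ} (ω : SimpleGraph (Fin n) × StarPos n d K) (z : ℂ) : rho ω z ≤ 1 :=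
  min_le_left _ _

lemma dev_nonneg {n d K : ℕ} (ω : SimpleGraph (Fin n) × StarPos n d K) (z : ℂ) : 0 ≤ dev ω z :=
  le_min zero_le_one (Finset.sum_nonneg fun _ _ => Finset.sum_nonneg fun _ _ => sq_nonneg _)

lemma dev_le_one {n d K : ℕ} (ω : SimpleGraph (Fin n) × StarPos n d K) (z : ℂ) : dev ω z ≤ 1 :=
  min_le_left _ _

lemma VV_nonneg {n d : ℕ} (G : SimpleGraph (Fin n)) (z : ℂ) : 0 ≤ VV d G z :=
  avg_nonneg fun _ _ => dev_nonneg _ _

lemma VV_le_one {n d : ℕ} (G : SimpleGraph (Fin n)) (z : ℂ) : VV d G z ≤ 1 :=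
  (avg_mono fun _ _ => dev_le_one _ _).trans (avg_const_le _ zero_le_one)

lemma RG_nonneg {n d : ℕ} (G : SimpleGraph (Fin n)) (z : ℂ) : 0 ≤ RG d G z :=
  avg_nonneg fun _ _ => rho_nonneg _ _

lemma RG_le_one {n d : ℕ} (G : SimpleGraph (Fin n)) (z : ℂ) : RG d G z ≤ 1 :=
  (avg_mono fun _ _ => rho_le_one _ _).trans (avg_const_le _ zero_le_one)

lemma XW_eq (n d : ℕ) (w : SimpleGraph (Fin n) → ℝ) (z : ℂ) :
    XW n d w z = avg (regularGraphs n d) (fun G => w G * RG d G z) := by
  unfold XW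
  rw [B.avg_WW_eq]
  congr 1
  funext G
  simp only [B.mk_fst]
  exact avg_mul_left _ _ _

/-- The scale induction for the graphs. -/
theorem scales {d : ℕ} {a b : ℝ} (hN : SpecVnear d a b) (hVc : SpecVcont d a b)
    (hRV : SpecRV d a b) (hOS : SpecOS1 d a b) (hBS : SpecBS1 d a b) :
    ∃ A : ℝ, 1 ≤ A ∧ ∀ n : ℕ, Adm n d → ∀ E ∈ Set.Icc a b, ∀ η : ℝ, 0 < η → η ≤ 1 → 1 ≤ n * η →
      avg (regularGraphs n d) (fun G => RG d G (zz E η)) ≤ A / (n * η) ∧
      avg (regularGraphs n d) (fun G => VV d G (zz E η) ^ 2) ≤ A / (n * η) ^ 2 := by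
  obtain ⟨CN₀, hCN₀⟩ := hN ((d + 1) ^ 2)
  obtain ⟨CV₀, hCV₀⟩ := hVc
  obtain ⟨CR₀, hCR₀⟩ := hRV
  obtain ⟨ε₁, hε₁, C, κ, hC, hOS⟩ := hOS
  set ε := ε₁ / 2 with hε
  have hε0 : 0 < ε := by positivity
  set CN := max 0 CN₀ with hCN
  set CR := max 1 CR₀ with hCR
  have hCR1 : 1 ≤ CR := le_max_left _ _
  -- the ratio of the scales
  obtain ⟨r, hr1, hr2, hrV⟩ : ∃ r : ℝ, 1 < r ∧ r ≤ 2 ∧ |CV₀| * (r - 1) ≤ ε / 2 := by
    refine ⟨1 + min 1 (ε / (2 * (|CV₀| + 1))), ?_, ?_, ?_⟩
    · have : 0 < min 1 (ε / (2 * (|CV₀| + 1))) := lt_min one_pos (by positivity)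
      linarith
    · have := min_le_left 1 (ε / (2 * (|CV₀| + 1)))
      linarith
    · have h1 := min_le_right 1 (ε / (2 * (|CV₀| + 1)))
      have h0 : 0 ≤ min 1 (ε / (2 * (|CV₀| + 1))) := le_min zero_le_one (by positivity)
      have h2 : |CV₀| * (1 + min 1 (ε / (2 * (|CV₀| + 1))) - 1) ≤
          (|CV₀| + 1) * (ε / (2 * (|CV₀| + 1))) := by
        rw [add_sub_cancel_left]
        exact mul_le_mul (by linarith) h1 h0 (by positivity)
      refine h2.trans (le_of_eq ?_)
      have : |CV₀| + 1 ≠ 0 := by positivity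
      field_simp
  have hr0 : 0 < r := by linarith
  obtain ⟨p, hp, hH⟩ : ∃ p : ℕ, 0 < p ∧ 2 * (CR ^ 2 * C) ≤ r ^ p := by
    obtain ⟨p, hp⟩ := pow_unbounded_of_one_lt (2 * (CR ^ 2 * C)) hr1
    exact ⟨p + 1, Nat.succ_pos p, hp.le.trans (pow_le_pow_right₀ hr1.le (Nat.le_succ p))⟩
  obtain ⟨C'', hC''1, hBS⟩ := hBS (1 / 2 / r ^ p) (by positivity)
  obtain ⟨A, hA, hmain⟩ := Ind.main ε CN CR C (C * (r ^ p) ^ κ) C'' r p hε0 hr1 (le_max_left _ _)
    hC (by positivity) (by linarith) hCR1 hp hH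
  refine ⟨A, hA, fun n hn E hE η hη0 hη1 hnη => ?_⟩
  have hn0 : (0 : ℝ) < n := by
    rcases Nat.eq_zero_or_pos n with h | h
    · subst h; norm_num at hnη
    · exact_mod_cast h
  -- the scales
  obtain ⟨J, hJ1, hJ2⟩ := exists_nat_pow_near (x := 1 / η) (y := r) (by
    rw [le_div_iff₀ hη0]; linarith) hr1
  set t0 := η * r ^ J with ht0
  have ht0_le : t0 ≤ 1 := by
    rw [le_div_iff₀ hη0] at hJ1; linarith
  have ht0_ge : 1 / 2 ≤ t0 := by
    rw [div_lt_iff₀ hη0] at hJ2
    have h3 : 1 < r * t0 := by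
      rw [ht0]
      calc (1 : ℝ) < r ^ (J + 1) * η := hJ2
        _ = _ := by ring
    have h4 : 0 < t0 := by positivity
    nlinarith
  have ht0_pos : 0 < t0 := by linarith
  set t : ℕ → ℝ := fun k => t0 / r ^ k with ht
  have ht_pos : ∀ k, 0 < t k := fun k => by positivity
  have ht_le : ∀ k, t k ≤ 1 := fun k => by
    rw [ht]
    exact (div_le_one (by positivity)).2 (ht0_le.trans (one_le_pow₀ hr1.le))
  have htJ : t J = η := by
    rw [ht, ht0]
    field_simp
  have ht_anti : ∀ k ≤ J, η ≤ t k := fun k hk => by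
    rw [← htJ, ht]
    exact div_le_div_of_nonneg_left ht0_pos.le (by positivity) (pow_le_pow_right₀ hr1.le hk)
  have hnt : ∀ k ≤ J, 1 ≤ n * t k := fun k hk =>
    hnη.trans (mul_le_mul_of_nonneg_left (ht_anti k hk) hn0.le)
  have hnt_pos : ∀ k, 0 < n * t k := fun k => mul_pos hn0 (ht_pos k)
  have ht_sub : ∀ k, p ≤ k → r ^ p * t k = t (k - p) := fun k hk => by
    simp only [ht]
    obtain ⟨j, rfl⟩ := Nat.exists_eq_add_of_le hk
    rw [Nat.add_sub_cancel_left, pow_add]
    field_simp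
  have hsys : Ind.Sys ε CN CR C (C * (r ^ p) ^ κ) C'' r p (regularGraphs n d)
      (Near ((d + 1) ^ 2)) (fun k => 1 / (n * t k)) J (fun k G => VV d G (zz E (t k)))
      (fun k G => RG d G (zz E (t k))) := by
    refine ⟨fun k => one_div_pos.2 (hnt_pos k), fun k => ?_, fun k G => VV_nonneg _ _,
      fun k G => VV_le_one _ _, fun k G => RG_nonneg _ _, fun k G => RG_le_one _ _,
      fun k hk G hG G' hG' hGG => ?_, fun k hk G hG => ?_, fun k hk G hG => ?_,
      fun k hk G hG => ?_, fun k hk hpk B hB w hw0 hw hws => ?_,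
      fun k hk hkp B hB w hw0 hw => ?_⟩
    · simp only [ht, pow_succ]
      field_simp
    · rw [abs_sub_comm]
      refine (hCN₀ n G hG G' hG' hGG E hE (t k) (ht_pos k) (ht_le k)).trans ?_
      rw [div_eq_mul_one_div]
      exact mul_le_mul_of_nonneg_right (le_max_right _ _) (one_div_pos.2 (hnt_pos k)).le
    · rw [abs_sub_comm]
      have h1 : t k / t (k + 1) = r := by
        simp only [ht, pow_succ]
        field_simp
      have h2 : t (k + 1) ≤ t k := by
        simp only [ht]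
        exact div_le_div_of_nonneg_left ht0_pos.le (by positivity)
          (pow_le_pow_right₀ hr1.le (Nat.le_succ k))
      have h3 : t k ≤ 2 * t (k + 1) := by
        have : t k = r * t (k + 1) := by
          rw [← h1]; have := (ht_pos (k + 1)).ne'; field_simp
        rw [this]
        exact mul_le_mul_of_nonneg_right hr2 (ht_pos _).le
      refine (hCV₀ n G hG E hE (t k) (t (k + 1)) (ht_pos _) h2 h3 (ht_le k)).trans ?_
      rw [h1]
      exact (mul_le_mul_of_nonneg_right (le_abs_self CV₀) (by linarith)).trans hrV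
    · refine ((hCR₀ n hn G hG E hE (t k) (ht_pos k) (ht_le k) (hnt k hk)).1).trans ?_
      refine mul_le_mul_of_nonneg_right (le_max_right _ _) (add_nonneg (VV_nonneg _ _) ?_)
      exact (one_div_pos.2 (hnt_pos k)).le
    · refine ((hCR₀ n hn G hG E hE (t k) (ht_pos k) (ht_le k) (hnt k hk)).2).trans ?_
      have h1 : 1 / (n : ℝ) ≤ 1 / (n * t k) := by
        apply one_div_le_one_div_of_le (hnt_pos k)
        have := mul_le_mul_of_nonneg_left (ht_le k) hn0.le
        linarith
      have h2 : 0 ≤ RG d G (zz E (t k)) := RG_nonneg _ _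
      have h3 : (0 : ℝ) < 1 / n := by positivity
      calc CR₀ * (RG d G (zz E (t k)) + 1 / n) ≤ CR * (RG d G (zz E (t k)) + 1 / n) :=
            mul_le_mul_of_nonneg_right (le_max_right _ _) (by positivity)
        _ ≤ _ := mul_le_mul_of_nonneg_left (by linarith) (by linarith)
    · have hWt : Wt1 n d (B / (n * t k)) w := by
        refine ⟨hw0, fun G hG G' hG' hGG => ?_⟩
        have := hw G hG G' hG' hGG
        rwa [div_eq_mul_one_div]
      have hsub := ht_sub k hpk
      have h1 := hOS n hn E hE (t k) (r ^ p) B (ht_pos k) (hnt k hk) (one_le_pow₀ hr1.le)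
        (by rw [hsub]; exact ht_le _) hB w hWt (fun G hG h => (hws G hG h).trans (by
          rw [hε]; linarith))
      rw [hsub, XW_eq, XW_eq, XW_eq] at h1
      simp only [one_mul] at h1
      unfold MW at h1
      calc _ ≤ _ := h1
        _ = _ := by rw [div_eq_mul_one_div]
    · have hWt : Wt1 n d ((B / t k) / n) w := by
        refine ⟨hw0, fun G hG G' hG' hGG => ?_⟩
        have := hw G hG G' hG' hGG
        calc _ ≤ _ := this
          _ = _ := by
            have := (ht_pos k).ne'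
            field_simp
      have hge : 1 / 2 / r ^ p ≤ t k := by
        simp only [ht]
        calc 1 / 2 / r ^ p ≤ t0 / r ^ p := div_le_div_of_nonneg_right ht0_ge (by positivity)
          _ ≤ t0 / r ^ k := div_le_div_of_nonneg_left ht0_pos.le (by positivity)
              (pow_le_pow_right₀ hr1.le hkp.le)
      have h1 := hBS n hn E hE (t k) (B / t k) hge (ht_le k) (div_nonneg hB (ht_pos k).le) w hWt
      rw [XW_eq, XW_eq] at h1
      simp only [one_mul] at h1
      unfold MW at h1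
      have h2 : 0 ≤ avg (regularGraphs n d) w + avg (regularGraphs n d)
          (fun G => RG d G (zz E (t k))) :=
        add_nonneg (avg_nonneg fun G _ => hw0 G) (avg_nonneg fun G _ => RG_nonneg _ _)
      have h3 : 1 + B / t k ≤ (1 + B) * (1 / t k) := by
        have h4 : 1 ≤ 1 / t k := by
          rw [le_div_iff₀ (ht_pos k)]; linarith [ht_le k]
        rw [add_mul, one_mul, mul_one_div]
        linarith
      calc _ ≤ _ := h1
        _ ≤ C'' * ((1 + B) * (1 / t k)) * (avg (regularGraphs n d) w +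
              avg (regularGraphs n d) (fun G => RG d G (zz E (t k)))) / n := by
            refine div_le_div_of_nonneg_right (mul_le_mul_of_nonneg_right
              (mul_le_mul_of_nonneg_left h3 (by linarith)) h2) hn0.le
        _ = _ := by
            have := (ht_pos k).ne'
            field_simp
  have h := hmain _ _ _ _ _ _ _ hsys J le_rfl
  simp only [htJ] at h
  refine ⟨h.1.trans (le_of_eq ?_), h.2.trans (le_of_eq ?_)⟩
  · rw [mul_one_div]
  · rw [one_div, inv_pow, div_eq_mul_inv]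

/-- **FE10, first moment.** -/
theorem specFM_of {d : ℕ} {a b : ℝ} (hN : SpecVnear d a b) (hVc : SpecVcont d a b)
    (hRV : SpecRV d a b) (hOS : SpecOS1 d a b) (hBS : SpecBS1 d a b) : SpecFM d a b := by
  obtain ⟨A, hA, h⟩ := scales hN hVc hRV hOS hBS
  refine ⟨A, hA, fun n hn E hE η h0 h1 h2 => ?_⟩
  have h3 := (h n hn E hE η h0 h1 h2).1
  have h4 := XW_eq n d (fun _ => 1) (zz E η)
  simp only [one_mul] at h4
  rw [← h4] at h3
  unfold XW at h3
  simpa using h3

/-- **FE10, second moment.** -/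
theorem specV2_of {d : ℕ} {a b : ℝ} (hN : SpecVnear d a b) (hVc : SpecVcont d a b)
    (hRV : SpecRV d a b) (hOS : SpecOS1 d a b) (hBS : SpecBS1 d a b) : SpecV2 d a b := by
  obtain ⟨A, hA, h⟩ := scales hN hVc hRV hOS hBS
  exact ⟨A, hA, fun n hn E hE η h0 h1 h2 => (h n hn E hE η h0 h1 h2).2⟩

end

end Vale.Agent.P156.FE
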