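import Vale.Agent.P156.H849.Upgrade

/-! # Joint linear statistics of the GOE form Cauchy sequences -/

open MeasureTheory Filter Topology Finset

namespace Vale.Agent.P156.FE

open Vale.Agent.P156 Vale.Agent.P156.H849

/-- Cauchy property of the Laplace functionals. -/
def GoeCauchy : Prop :=
  ∀ f : ℝ → ℝ, Continuous f → HasCompactSupport f → (∀ x, 0 ≤ f x) →
    CauchySeq (fun n => ∫ w, Real.exp (-∫ x, f x ∂(XiGOE n w)) ∂(goeLaw n))

/-- Joint linear statistics of the GOE: expectations of bounded continuous functions form a Cauchy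
sequence. -/
theorem joint_cauchy (hM : GoeCauchy) (hT : GoeTight) {m : ℕ} (f : Fin m → ℝ → ℝ)
    (hf : ∀ j, Continuous (f j)) (hfc : ∀ j, HasCompactSupport (f j)) (Φ : (Fin m → ℝ) → ℝ)
    (hΦ : Continuous Φ) {C : ℝ} (hC : ∀ x, |Φ x| ≤ C) :
    CauchySeq (fun n : ℕ => avgGOE n f Φ) := by
  classical
  have hC0 : 0 ≤ C := (abs_nonneg _).trans (hC 0)
  set g : Fin m × Bool → ℝ → ℝ := parts f with hg
  have hgc : ∀ i, Continuous (g i) := continuous_parts f hf
  have hgs : ∀ i, HasCompactSupport (g i) := hasCompactSupport_parts f hfc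
  have hg0 : ∀ i x, 0 ≤ g i x := parts_nonneg f
  let Ψ : (Fin m × Bool → ℝ) → ℝ := fun y => Φ (fun j => y (j, true) - y (j, false))
  have hΨ : Continuous Ψ := hΦ.comp (by fun_prop)
  have hΨC : ∀ y, |Ψ y| ≤ C := fun y => hC _
  have hAW : ∀ n, avgGOE n f Φ = ∫ w, Ψ (vecW n g w) ∂(goeLaw n) := by
    intro n
    unfold avgGOE
    congr 1
    funext w
    simp only [Ψ]
    congr 1
    funext j
    simp only [vecW, integral_XiGOE, ← Finset.sum_sub_distrib, hg, parts_sub]
  rw [cauchySeq_iff_tendsto_dist_atTop_0, ← prod_atTop_atTop_eq]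
  -- Laplace differences
  set L : (Fin m × Bool →₀ ℕ) → ℕ × ℕ → ℝ := fun t a =>
    |(∫ w, Real.exp (-∫ x, comb g t x ∂(XiGOE a.1 w)) ∂(goeLaw a.1))
      - ∫ w, Real.exp (-∫ x, comb g t x ∂(XiGOE a.2 w)) ∂(goeLaw a.2)| with hL
  suffices hmain : ∀ ε : ℝ, 0 < ε → ∀ᶠ a : ℕ × ℕ in atTop ×ˢ atTop,
      |avgGOE a.1 f Φ - avgGOE a.2 f Φ| ≤ (4 * C + 3) * ε by
    rw [Metric.tendsto_nhds]
    intro ε hε
    have hK : 0 < 4 * C + 3 := by linarith
    filter_upwards [hmain (ε / (2 * (4 * C + 3))) (by positivity)] with a ha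
    rw [Real.dist_eq, sub_zero, Real.dist_eq, abs_abs]
    refine lt_of_le_of_lt ha ?_
    calc (4 * C + 3) * (ε / (2 * (4 * C + 3))) = ε / 2 := by field_simp
      _ < ε := by linarith
  intro ε hε
  -- tightness of the GOE vector
  have htight : ∃ R : ℝ, ∀ᶠ n in (atTop : Filter ℕ),
      (goeLaw n).real {w | ∃ i, R < vecW n g w i} ≤ ε := by
    set N : ℝ := (Fintype.card (Fin m × Bool) : ℝ) + 1 with hN
    have hN0 : 0 < N := by positivity
    choose R hR using fun i => hT (g i) (hgc i) (hgs i) (hg0 i) (ε / N) (by positivity)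
    refine ⟨∑ i, |R i|, ?_⟩
    have hev : ∀ᶠ n in (atTop : Filter ℕ), ∀ i,
        (goeLaw n).real {w | R i < vecW n g w i} ≤ ε / N := by
      rw [eventually_all]
      intro i
      exact hR i
    filter_upwards [hev] with n hn
    have : IsProbabilityMeasure (goeLaw n) := by unfold goeLaw; infer_instance
    have hsub : {w : Upper n → ℝ | ∃ i, ∑ i, |R i| < vecW n g w i} ⊆
        ⋃ i ∈ (Finset.univ : Finset (Fin m × Bool)), {w | R i < vecW n g w i} := by
      rintro w ⟨i, hi⟩
      refine Set.mem_iUnion₂.mpr ⟨i, Finset.mem_univ _, ?_⟩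
      refine lt_of_le_of_lt ((le_abs_self _).trans ?_) hi
      exact Finset.single_le_sum (f := fun i => |R i|) (fun _ _ => abs_nonneg _)
        (Finset.mem_univ i)
    refine (measureReal_mono hsub (measure_ne_top _ _)).trans ?_
    refine (measureReal_biUnion_finset_le _ _).trans ?_
    refine (Finset.sum_le_sum fun i _ => hn i).trans ?_
    rw [Finset.sum_const, nsmul_eq_mul, Finset.card_univ, ← mul_div_assoc, div_le_iff₀ hN0, hN]
    nlinarith
  obtain ⟨R, hR⟩ := htight
  obtain ⟨T, A, hA0, hcmp⟩ := laplace_compare Ψ hΨ hΨC R hε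
  have hLt : ∀ t ∈ T, ∀ᶠ a : ℕ × ℕ in atTop ×ˢ atTop, L t a ≤ ε / ((T.card + 1) * (A + 1)) := by
    intro t _
    have h0 := hM (comb g t) (continuous_comb g hgc t) (hasCompactSupport_comb g hgs t)
      (comb_nonneg g hg0 t)
    rw [cauchySeq_iff_tendsto_dist_atTop_0, ← prod_atTop_atTop_eq] at h0
    exact (h0.eventually_lt_const (by positivity)).mono fun a ha => ha.le
  have hLt' : ∀ᶠ a : ℕ × ℕ in atTop ×ˢ atTop, ∀ t ∈ T, L t a ≤ ε / ((T.card + 1) * (A + 1)) := by
    rw [Filter.eventually_all_finset]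
    exact hLt
  have hR2 := (tendsto_snd (f := (atTop : Filter ℕ)) (g := (atTop : Filter ℕ))).eventually hR
  filter_upwards [hR2, hLt'] with a hRn hLn
  have hW : ∀ n, IsProbabilityMeasure (goeLaw n) := fun n => by unfold goeLaw; infer_instance
  have hcW : ∀ n, Continuous (vecW n g) := fun n =>
    continuous_pi fun i => continuous_integral_XiGOE n (g i) (hgc i)
  have hmW : ∀ n, Measurable (vecW n g) := fun n => (hcW n).measurable
  have i2 : ∀ n, IsProbabilityMeasure ((goeLaw n).map (vecW n g)) := fun n =>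
    Measure.isProbabilityMeasure_map (hmW n).aemeasurable
  have hmeas : MeasurableSet {y : Fin m × Bool → ℝ | ∃ i, R < y i} := by
    have : {y : Fin m × Bool → ℝ | ∃ i, R < y i} = ⋃ i, {y | R < y i} := by ext; simp
    rw [this]
    exact MeasurableSet.iUnion fun i => measurableSet_lt measurable_const (measurable_pi_apply i)
  have hae : ∀ n, ∀ᵐ y ∂((goeLaw n).map (vecW n g)), ∀ i, 0 ≤ y i := by
    intro n
    rw [ae_map_iff (hmW n).aemeasurable (by
      rw [show {x : Fin m × Bool → ℝ | ∀ i, 0 ≤ x i} = ⋂ i, {x | 0 ≤ x i} by ext; simp]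
      exact MeasurableSet.iInter fun i => measurableSet_le measurable_const
        (measurable_pi_apply i))]
    exact Eventually.of_forall fun w => vecW_nonneg n g hg0 w
  have key := hcmp ((goeLaw a.1).map (vecW a.1 g)) ((goeLaw a.2).map (vecW a.2 g))
    (hae a.1) (hae a.2)
    (by
      rw [map_measureReal_apply (hmW a.2) hmeas]
      exact hRn)
  rw [integral_map (hmW a.1).aemeasurable hΨ.aestronglyMeasurable,
    integral_map (hmW a.2).aemeasurable hΨ.aestronglyMeasurable, ← hAW a.1, ← hAW a.2] at key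
  have hsum : ∑ t ∈ T, |lapN ((goeLaw a.1).map (vecW a.1 g)) t -
      lapN ((goeLaw a.2).map (vecW a.2 g)) t| = ∑ t ∈ T, L t a := by
    refine Finset.sum_congr rfl fun t _ => ?_
    simp only [hL, lapN]
    rw [integral_map (hmW a.1).aemeasurable (Continuous.aestronglyMeasurable (by fun_prop)),
      integral_map (hmW a.2).aemeasurable (Continuous.aestronglyMeasurable (by fun_prop))]
    simp only [sum_vecW]
  rw [hsum] at key
  have h3 : ∑ t ∈ T, L t a ≤ T.card * (ε / ((T.card + 1) * (A + 1))) := by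
    rw [← nsmul_eq_mul]
    exact Finset.sum_le_card_nsmul _ _ _ fun t ht => hLn t ht
  have h4 : A * ∑ t ∈ T, L t a ≤ ε := by
    refine (mul_le_mul_of_nonneg_left h3 hA0).trans ?_
    rw [← mul_div_assoc, ← mul_div_assoc, div_le_iff₀ (by positivity)]
    have : (0 : ℝ) ≤ T.card := Nat.cast_nonneg _
    nlinarith [mul_nonneg this hA0]
  linarith

end Vale.Agent.P156.FE
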