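import Vale.Agent.P156.FE.Limit1
import Vale.Agent.P156.FE.Limit2
import Vale.Agent.P156.H625.Tight

/-! # Limits of the joint linear statistics of the GOE exist -/

open MeasureTheory Filter Topology Finset

namespace Vale.Agent.P156.FE

open Vale.Agent.P156

theorem goeCauchy : GoeCauchy := fun _ hf hcs hf0 => goe_lapl_cauchy hf hcs hf0

/-- **LIMIT (L1, L2).** The expectation of every bounded continuous function of finitely many
linear statistics of the unfolded GOE point measure has a limit. -/
theorem goe_limit_exists {m : ℕ} (f : Fin m → ℝ → ℝ)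
    (hf : ∀ j, Continuous (f j)) (hfc : ∀ j, HasCompactSupport (f j)) (Φ : (Fin m → ℝ) → ℝ)
    (hΦ : Continuous Φ) (hC : ∃ C : ℝ, ∀ x, |Φ x| ≤ C) :
    ∃ l : ℝ, Tendsto (fun n : ℕ => avgGOE n f Φ) atTop (𝓝 l) := by
  obtain ⟨C, hC⟩ := hC
  exact cauchySeq_tendsto_of_complete (joint_cauchy goeCauchy H625.goeTight f hf hfc Φ hΦ hC)

end Vale.Agent.P156.FE
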