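import Vale.Agent.P156.G.Glue
import Vale.Agent.P156.H144.Merge
import Vale.Agent.P156.H737.GoeFinal
import Vale.Agent.P156.H9.Final

/-! # The Laplace functionals of the unfolded GOE point measure converge -/

open MeasureTheory ProbabilityTheory Filter Topology Finset Matrix

namespace Vale.Agent.P156.FE

open Vale.Agent.P156 Vale.Agent.P156.H144

/-- Bounded continuous functions of the samples: up to `ε`, the expectations have a limit. -/
theorem goe_core (hO : GoeLimit) (K : ℕ) (F : Matrix (Fin K) (Fin K) ℝ → ℝ)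
    (hF : Continuous F) (hb : ∀ C, |F C| ≤ 1) {ε : ℝ} (hε : 0 < ε) :
    ∃ v : ℝ, ∀ᶠ n in atTop, |∫ ω, F (COg ω.1 ω.2) ∂(POg n (Fin K)) - v| ≤ ε := by
  obtain ⟨c, hc⟩ := exists_isCOE K
  obtain ⟨F', χ, hχ0, hχ, hsand⟩ := sandwich K F hF hb (ε := ε / 4) (by positivity)
  have hχc := hχ c hc
  have hO1 := hO K c hc F'
  have hO2 := hO K c hc χ
  have hε8 : 0 < ε / 4 := by positivity
  refine ⟨c F', ?_⟩
  filter_upwards [Metric.tendsto_nhds.1 hO1 _ hε8, Metric.tendsto_nhds.1 hO2 _ hε8] with n b1 b2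
  change dist (∫ ω, F' (ptS (COg ω.1 ω.2)) ∂(POg n (Fin K))) _ < _ at b1
  change dist (∫ ω, χ (ptS (COg ω.1 ω.2)) ∂(POg n (Fin K))) _ < _ at b2
  have e2 : |∫ ω, F (COg ω.1 ω.2) ∂(POg n (Fin K))
      - ∫ ω, F' (ptS (COg ω.1 ω.2)) ∂(POg n (Fin K))|
      ≤ ∫ ω, χ (ptS (COg ω.1 ω.2)) ∂(POg n (Fin K)) := by
    refine abs_integral_sub_le _ ?_ ?_ ?_ fun ω => hsand _ (COg_symm _ _)
    · exact integrable_of_bdd _ (measurable_of_cont (fun i j => COg_measurable i j) hF)
        (fun ω => hb _)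
    · refine integrable_of_bdd _ (measurable_ptS_comp (fun i j => COg_measurable i j)
        (fun ω => COg_symm _ _) F') (B := ‖F'‖) fun ω => ?_
      exact F'.norm_coe_le_norm _
    · refine integrable_of_bdd _ (measurable_ptS_comp (fun i j => COg_measurable i j)
        (fun ω => COg_symm _ _) χ) (B := ‖χ‖) fun ω => ?_
      exact χ.norm_coe_le_norm _
  rw [Real.dist_eq, abs_lt] at b1 b2
  rw [abs_le] at e2 ⊢
  constructor <;> linarith [b1.1, b1.2, b2.1, b2.2, e2.1, e2.2]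

/-- The same for the samples of block G. -/
theorem goe_samples (hO : GoeLimit) (N M : ℕ)
    (F : ((Fin N × Fin (M + 1)) → (Fin N × Fin (M + 1)) → ℝ) → ℝ) (hF : Continuous F)
    (hb : ∀ C, |F C| ≤ 1) {ε : ℝ} (hε : 0 < ε) :
    ∃ v : ℝ, ∀ᶠ n in atTop, |∫ ω, F (G.CO N M ω) ∂(G.PO n N M) - v| ≤ ε := by
  let F₁ : Matrix (Fin (N * (M + 1))) (Fin (N * (M + 1))) ℝ → ℝ :=
    fun C => F (fun x y => C (finProdFinEquiv x) (finProdFinEquiv y))
  have hF₁ : Continuous F₁ := by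
    refine hF.comp ?_
    refine continuous_pi fun x => continuous_pi fun y => ?_
    exact continuous_id.matrix_elem _ _
  obtain ⟨v, hv⟩ := goe_core hO (N * (M + 1)) F₁ hF₁ (fun C => hb _) hε
  refine ⟨v, ?_⟩
  filter_upwards [hv] with n hn
  have h2 := integral_reindex (n := n) (finProdFinEquiv (m := N) (n := M + 1))
    (fun ω => F₁ (COg ω.1 ω.2))
  rw [h2] at hn
  have h3 : ∫ ω, F (G.CO N M ω) ∂(G.PO n N M) =
      ∫ ω : (Upper n → ℝ) × (Fin N × Fin (M + 1) → Fin n → ℝ),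
        F₁ (COg ω.1 (fun x => ω.2 (finProdFinEquiv.symm x))) ∂(POg n (Fin N × Fin (M + 1))) := by
    change ∫ ω, F (G.CO N M ω) ∂(POg n (Fin N × Fin (M + 1))) = _
    refine integral_congr_ae (Eventually.of_forall fun ω => ?_)
    change F _ = F _
    congr 1
    funext x y
    unfold COg G.CO
    simp only [Equiv.symm_apply_apply]
  rw [h3]
  exact hn

theorem approx_comp {α β : Type*} {l : Filter α} {l' : Filter β} {g : ℝ → ℝ} {L : α → ℝ}
    {Q : ∀ N M : ℕ, α → (((Fin N × Fin (M + 1)) → (Fin N × Fin (M + 1)) → ℝ) → ℝ) → ℝ}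
    (h : G.Approx l g L Q) {φ : β → α} (hφ : Tendsto φ l' l) :
    G.Approx l' g (fun b => L (φ b)) (fun N M b F => Q N M (φ b) F) := by
  intro ε hε
  obtain ⟨Lam0, h0, h⟩ := h ε hε
  refine ⟨Lam0, h0, fun Lam hL η hη p hp M hM => ?_⟩
  obtain ⟨N0, h⟩ := h Lam hL η hη p hp M hM
  exact ⟨N0, fun N hN => hφ.eventually (h N hN)⟩

/-- **The Laplace functionals of the unfolded GOE point measure form a Cauchy sequence.** -/
theorem goe_cauchy (H1 : G.GoeH1) (H2 : G.GoeH2) (hinv : G.GoeInv) (hO : GoeLimit)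
    {f : ℝ → ℝ} (hf : Continuous f) (hcs : HasCompactSupport f) (hf0 : ∀ x, 0 ≤ f x) :
    CauchySeq (fun n => ∫ w, Real.exp (-∫ x, f x ∂(XiGOE n w)) ∂(goeLaw n)) := by
  rw [cauchySeq_iff_tendsto_dist_atTop_0, ← prod_atTop_atTop_eq]
  have hA := G.approx_goe H1 H2 hinv (le_refl (atTop : Filter ℕ)) hf hcs hf0
  have h := G.compare (G.gf f) (G.gf_continuous hf hcs) (G.gf_near_zero hcs) _ _ _ _
    (approx_comp hA (tendsto_fst (f := (atTop : Filter ℕ)) (g := (atTop : Filter ℕ))))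
    (approx_comp hA (tendsto_snd (f := (atTop : Filter ℕ)) (g := (atTop : Filter ℕ))))
    (fun N M p _ => ?_)
  · have h2 := h.abs
    rw [abs_zero] at h2
    exact h2
  · rw [Metric.tendsto_nhds]
    intro ε hε
    obtain ⟨v, hv⟩ := goe_samples hO N M (G.Psi p N M) (G.continuous_Psi p N M)
      (G.abs_Psi_le p N M) (ε := ε / 4) (by positivity)
    filter_upwards [(tendsto_fst (f := (atTop : Filter ℕ)) (g := (atTop : Filter ℕ))).eventually hv,
      (tendsto_snd (f := (atTop : Filter ℕ)) (g := (atTop : Filter ℕ))).eventually hv] with a h1 h2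
    rw [Real.dist_eq, sub_zero]
    rw [abs_le] at h1 h2
    rw [abs_lt]
    constructor <;> linarith [h1.1, h1.2, h2.1, h2.2]

/-- Unconditional form. -/
theorem goe_lapl_cauchy {f : ℝ → ℝ} (hf : Continuous f) (hcs : HasCompactSupport f)
    (hf0 : ∀ x, 0 ≤ f x) :
    CauchySeq (fun n => ∫ w, Real.exp (-∫ x, f x ∂(XiGOE n w)) ∂(goeLaw n)) :=
  goe_cauchy H737.goeH1_done H737.goeH2_done H737.goeInv_done H9.goeLimit hf hcs hf0

end Vale.Agent.P156.FE
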