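import Vale.Agent.P156.FE.IndSM
import Vale.Agent.P156.H913.FE1
import Vale.Agent.P156.H558.FE4
import Vale.Agent.P156.H574.FE2
import Vale.Agent.P156.H574.FE3
import Vale.Agent.P156.H520.FE5
import Vale.Agent.P156.H520.FE6c
import Vale.Agent.P156.H490.TDh
import Vale.Agent.P156.F674.Ev
import Vale.Agent.P156.F674.ImUI
import Vale.Agent.P156.H9.FE13
import Vale.Agent.P156.H849.Averaged

/-! # Fixed energy upgrade (FE): assembly -/

open MeasureTheory Filter Topology Finset

namespace Vale.Agent.P156.FE

open Vale.Agent.P156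

/-- All conditions of `GoodSeq` except the microscopic ones, at every energy. -/
theorem specEv_of_open {d : ℕ} {a b : ℝ} (hB : Bulk d a b) (hZ : SpecZW d)
    (hComp : SpecComp d a b) (hRV : SpecRV d a b) (hVc : SpecVcont d a b)
    (hOS : SpecOS1 d a b) (hBS : SpecBS1 d a b)
    (hTD : SpecFM d a b → SpecV2 d a b → SpecTD d a b) : SpecEv d a b := by
  have hN := H558.specVnear d a b
  have hFM := specFM_of hN hVc hRV hOS hBS
  have hV2 := specV2_of hN hVc hRV hOS hBS
  exact F674.specEv_of hB.1 (H913.specM hB) hComp hZ hFM (F674.specImUI_of (hTD hFM hV2))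

/-- All conditions of `GoodSeq` except the microscopic ones, at every energy, from the one-step
inequality and the base scale. -/
theorem specEv_of {d : ℕ} {a b : ℝ} (hB : Bulk d a b)
    (hOS : SpecOS1 d a b) (hBS : SpecBS1 d a b) : SpecEv d a b := by
  have hd := hB.1
  have hM := H913.specM hB
  have hComp := H520.specComp hd hM
  have hN := H558.specVnear d a b
  have hVc := H520.specVcont hd hM
  have hRV := H520.specRV hd hM
  have hFM := specFM_of hN hVc hRV hOS hBS
  have hSM := specSM_of_V2 hN (specV2_of hN hVc hRV hOS hBS)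
  have hGr := H574.specGrow (by omega) hM hComp
  have hTD := H490.TD.specTD hd hM hGr (H574.specDec d) hComp (H520.specWard d) hFM hSM
  exact F674.specEv_of hd hM hComp (B.specZW d) hFM (F674.specImUI_of hTD)

/-- **Fixed energy bulk universality** from the one-step inequality and the base scale. -/
theorem targetFixed_of {d : ℕ} (hd : 3 ≤ d) (hOS : ∀ a b : ℝ, Bulk d a b → SpecOS1 d a b)
    (hBS : ∀ a b : ℝ, Bulk d a b → SpecBS1 d a b) : TargetFixed d :=
  H9.targetFixed_of_ev hd (fun a b hB => specEv_of hB (hOS a b hB) (hBS a b hB)) (H849.specS hd)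

end Vale.Agent.P156.FE
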