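import Vale.Agent.P156.FE.Defs

/-! # Fixed energy upgrade (FE): interface statements -/

open MeasureTheory Filter Topology Matrix Finset

namespace Vale.Agent.P156.FE

noncomputable section

/-! ### FE1: scalar facts on `m(z)`, `z = E + iη`, `E ∈ [a,b]`, `0 < η ≤ 1` -/

/-- Uniform bounds for `m(z)`. -/
def SpecM (d : ℕ) (a b : ℝ) : Prop :=
  ∃ c : ℝ, 0 < c ∧ c ≤ 1 ∧ (∀ E ∈ Set.Icc a b, ∀ η : ℝ, 0 < η → η ≤ 1 →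
    c ≤ (mm d (zz E η)).im ∧ ‖mm d (zz E η)‖ ≤ 1 ∧
    ((d : ℝ) - 1) * ‖mm d (zz E η)‖ ^ 2 ≤ 1 ∧ c ≤ ‖1 - ((d : ℂ) - 1) * mm d (zz E η) ^ 2‖ ∧
    ((d : ℂ) - 1) * mm d (zz E η) ^ 2 + zz E η * mm d (zz E η) + 1 = 0) ∧
    (∀ E ∈ Set.Icc a b, ∀ η η' : ℝ, 0 < η → η ≤ 1 → 0 < η' → η' ≤ 1 →
      ‖mm d (zz E η) - mm d (zz E η')‖ ≤ c⁻¹ * |η - η'|) ∧
    (∀ E ∈ Set.Icc a b, ∀ η : ℝ, 0 < η → η ≤ 1 → ‖mm d (zz E η) - mE d E‖ ≤ c⁻¹ * η)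

/-- The coordinate `TT` and the linearised tree recursion. -/
def SpecT (d : ℕ) (a b : ℝ) : Prop :=
  ∃ C : ℝ, 1 ≤ C ∧ ∀ E ∈ Set.Icc a b, ∀ η : ℝ, 0 < η → η ≤ 1 → ∀ z m : ℂ, z = zz E η →
    m = mm d z →
    (∀ h : ℂ, 0 ≤ h.im → C⁻¹ * min 1 ‖h - m‖ ≤ ‖TT m h‖ ∧ ‖TT m h‖ ≤ C * min 1 ‖h - m‖) ∧
    (∀ h h' : ℂ, 0 ≤ h.im → 0 ≤ h'.im → ‖TT m h - TT m h'‖ ≤ C * ‖h - h'‖) ∧
    (∀ s s' : ℂ, 0 ≤ s.im → 0 ≤ s'.im →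
      ‖TT m (-1 / (z + s)) - TT m (-1 / (z + s'))‖ ≤ C * ‖s - s'‖) ∧
    (∀ h : Fin (d - 1) → ℂ, (∀ k, 0 ≤ (h k).im) →
      ‖TT m (-1 / (z + ∑ k, h k)) - m ^ 2 * ∑ k, TT m (h k)‖ ≤
        C * ∑ k, ∑ l, if k ≠ l then ‖TT m (h k)‖ * ‖TT m (h l)‖ else 0)

/-! ### FE2: growth -/

/-- If all `K` stars are typical at `E + iHη`, then at `E + iη` everything is bounded by `C H`.
`K ≥ 1` stars, `M^{(j)} = leadMat (sub1 ω j)`. -/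
def SpecGrow (d : ℕ) (a b : ℝ) : Prop :=
  ∀ K : ℕ, ∃ c₁ > 0, ∃ C : ℝ, 1 ≤ C ∧ ∀ (n : ℕ) (ω : SimpleGraph (Fin n) × StarPos n d K),
    ω ∈ ZZs n d K → ∀ E ∈ Set.Icc a b, ∀ η H : ℝ, 0 < η → 1 ≤ H → H * η ≤ 1 →
    rho ω (zz E (H * η)) ≤ c₁ →
    (∀ p r, ‖leadMat ω (zz E η) p r‖ ≤ C * H) ∧
    (∀ x y, ‖starMat ω (zz E η) x y‖ ≤ C * H) ∧
    (∀ i j, ‖(centreMat ω (zz E η))⁻¹ i j‖ ≤ C * H) ∧
    (∀ j, ‖(starMat ω (zz E η) (j, none) (j, none))⁻¹‖ ≤ C * H) ∧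
    (∀ j p r, ‖leadMat (sub1 ω j) (zz E η) p r‖ ≤ C * H) ∧
    (∀ j p, ‖(leadMat (sub1 ω j) (zz E η) p p)⁻¹‖ ≤ C * H) ∧
    (∀ j p, 1 ≤ C * H * (leadMat (sub1 ω j) (zz E η) p p).im)

/-! ### FE3: decoupling -/

/-- If everything is bounded by `B` and star `k` is `t`-decoupled from the other stars then the
lead matrix is `C B^c t`-close to that of the single star `k` on the leads of `k`, and the entries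
between the leads of `k` and the other leads are `≤ C B^c t`. -/
def SpecDec (d : ℕ) : Prop :=
  ∀ K : ℕ, ∃ C : ℝ, ∃ c : ℕ, 1 ≤ C ∧ ∀ (n : ℕ) (ω : SimpleGraph (Fin n) × StarPos n d K),
    ω ∈ ZZs n d K → ∀ z : ℂ, 0 < z.im → ∀ (B t : ℝ), 1 ≤ B → 0 ≤ t →
    (∀ x y, ‖starMat ω z x y‖ ≤ B) → (∀ i j, ‖(centreMat ω z)⁻¹ i j‖ ≤ B) →
    ∀ k : Fin K, ‖(starMat ω z (k, none) (k, none))⁻¹‖ ≤ B →
    (∀ x y, ∀ j ≠ k, ‖starMat ω z (k, x) (j, y)‖ ≤ t) →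
    (∀ p r : Fin d, ‖leadMat ω z (k, p) (k, r) - leadMat (sub1 ω k) z (0, p) (0, r)‖
      ≤ C * B ^ c * t) ∧
    (∀ p : Fin d, ∀ j ≠ k, ∀ r : Fin d, ‖leadMat ω z (k, p) (j, r)‖ ≤ C * B ^ c * t)

/-! ### FE4, FE5: stability and continuity of `VV` -/

def SpecVnear (d : ℕ) (a b : ℝ) : Prop :=
  ∀ k : ℕ, ∃ C : ℝ, ∀ n : ℕ, ∀ G ∈ regularGraphs n d, ∀ G' ∈ regularGraphs n d, Near k G G' →
    ∀ E ∈ Set.Icc a b, ∀ η : ℝ, 0 < η → η ≤ 1 →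
      |VV d G (zz E η) - VV d G' (zz E η)| ≤ C / (n * η)

def SpecVcont (d : ℕ) (a b : ℝ) : Prop :=
  ∃ C : ℝ, ∀ n : ℕ, ∀ G ∈ regularGraphs n d,
    ∀ E ∈ Set.Icc a b, ∀ η η' : ℝ, 0 < η' → η' ≤ η → η ≤ 2 * η' → η ≤ 1 →
      |VV d G (zz E η) - VV d G (zz E η')| ≤ C * (η / η' - 1)

/-! ### FE6: comparabilities and Ward -/

/-- `rho` and `dev` are comparable (`K` stars, on `ZZs`). -/
def SpecComp (d : ℕ) (a b : ℝ) : Prop :=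
  ∀ K : ℕ, ∃ C : ℝ, 1 ≤ C ∧ ∀ (n : ℕ) (ω : SimpleGraph (Fin n) × StarPos n d K),
    ω ∈ ZZs n d K → ∀ E ∈ Set.Icc a b, ∀ η : ℝ, 0 < η → η ≤ 1 →
      rho ω (zz E η) ≤ C * dev ω (zz E η) ∧ dev ω (zz E η) ≤ C * rho ω (zz E η)

/-- Ward identity averaged over a random star. -/
def SpecWard (d : ℕ) : Prop :=
  ∀ (n : ℕ) (G : SimpleGraph (Fin n)), G ∈ regularGraphs n d → 0 < n → ∀ E η : ℝ, 0 < η →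
  ∀ s : Fin n × (Fin d → Fin n),
    avg (B.stars d G) (fun t => Gam G (zz E η) s t) =
      ((d : ℝ) + 1) / (n * η) * ∑ x : Option (Fin d), (resD (adj G) ∅ (zz E η) (B.pos s x) (B.pos s x)).im

/-- Per graph comparison of one and two stars. -/
def SpecRV (d : ℕ) (a b : ℝ) : Prop :=
  ∃ C : ℝ, ∀ n : ℕ, Adm n d → ∀ G ∈ regularGraphs n d,
    ∀ E ∈ Set.Icc a b, ∀ η : ℝ, 0 < η → η ≤ 1 → 1 ≤ n * η →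
      RG d G (zz E η) ≤ C * (VV d G (zz E η) + 1 / (n * η)) ∧
      VV d G (zz E η) ≤ C * (RG d G (zz E η) + 1 / n)

/-! ### FE7: weighted exchangeability -/

def SpecSW (d : ℕ) : Prop :=
  ∀ (n K : ℕ), K ≤ d + 1 → ∀ (σ : Equiv.Perm (Fin K × Fin d)) (ι : Type) (z : ι → ℂ)
    (b : ℝ) (w w' : SimpleGraph (Fin n) → ℝ), Wt n d b w w' →
    ∀ Φ : (ι → Matrix (Fin K × Fin d) (Fin K × Fin d) ℂ) → ℝ,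
    |∑ ω ∈ ZZs n d K, w ω.1 * Φ (fun i => leadMat ω (z i)) -
      ∑ ω ∈ ZZs n d K, w ω.1 * Φ (fun i => (leadMat ω (z i)).submatrix σ σ)| ≤
      b * ∑ ω ∈ ZZs n d K, w' ω.1 * |Φ (fun i => (leadMat ω (z i)).submatrix σ σ)|

/-! ### FE8: one-step inequality -/

def SpecOS (d : ℕ) (a b : ℝ) : Prop :=
  ∃ ε₁ > 0, ∃ C : ℝ, ∃ κ : ℕ, 1 ≤ C ∧ ∀ n : ℕ, Adm n d → ∀ E ∈ Set.Icc a b,
    ∀ η H B : ℝ, 0 < η → 1 ≤ n * η → 1 ≤ H → H * η ≤ 1 → 0 ≤ B →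
    ∀ w w' : SimpleGraph (Fin n) → ℝ, Wt n d (B / (n * η)) w w' →
    (∀ G ∈ regularGraphs n d, w G ≠ 0 → VV d G (zz E η) ≤ ε₁) →
      XW n d w (zz E η) ≤ C * XW n d w (zz E (H * η)) +
        C * H ^ κ * (1 + B) * (MW n d w + XW n d w' (zz E η)) / (n * η)

/-! ### FE9: base scale -/

def SpecBS (d : ℕ) (a b : ℝ) : Prop :=
  ∀ η₁ > 0, ∃ C : ℝ, 1 ≤ C ∧ ∀ n : ℕ, Adm n d → ∀ E ∈ Set.Icc a b,
    ∀ η B : ℝ, η₁ ≤ η → η ≤ 1 → 0 ≤ B →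
    ∀ w w' : SimpleGraph (Fin n) → ℝ, Wt n d (B / n) w w' →
      XW n d w (zz E η) ≤ C * (1 + B) * (MW n d w + XW n d w' (zz E η)) / n

/-! ### FE10: scale induction -/

/-- First moment. -/
def SpecFM (d : ℕ) (a b : ℝ) : Prop :=
  ∃ A : ℝ, 1 ≤ A ∧ ∀ n : ℕ, Adm n d → ∀ E ∈ Set.Icc a b, ∀ η : ℝ, 0 < η → η ≤ 1 → 1 ≤ n * η →
    avg (WW n d 2) (fun ω => rho ω (zz E η)) ≤ A / (n * η)

/-- Second moment with cut-off: for every small `ε` and every scale there is a weight `0 ≤ w ≤ 1`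
such that `w = 1` off a set of probability `A/(nη)²`, `w` is supported on `V ≤ ε` at the scale `η`,
`E[w' V²] ≤ A/(nη)²`, and `w` has the variation property with a weight `w' ≥ w`. -/
def SpecSM (d : ℕ) (a b : ℝ) : Prop :=
  ∃ ε₂ > 0, ∀ ε : ℝ, 0 < ε → ε ≤ ε₂ → ∃ A L₀ : ℝ, 1 ≤ A ∧ 1 ≤ L₀ ∧ ∀ n : ℕ, Adm n d →
    ∀ E ∈ Set.Icc a b, ∀ η : ℝ, 0 < η → η ≤ 1 → L₀ ≤ n * η →
    ∃ w w' : SimpleGraph (Fin n) → ℝ, Wt n d (A / (n * η)) w w' ∧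
      (∀ G, w G ≤ 1) ∧ (∀ G, w' G ≤ 1) ∧ (∀ G, w G ≤ w' G) ∧
      (∀ G ∈ regularGraphs n d, w' G ≠ 0 → VV d G (zz E η) ≤ ε) ∧
      prob (regularGraphs n d) (fun G => w G ≠ 1) ≤ A / (n * η) ^ 2 ∧
      avg (regularGraphs n d) (fun G => w' G * VV d G (zz E η) ^ 2) ≤ A / (n * η) ^ 2

/-! ### FE11: two defects -/

def SpecTD (d : ℕ) (a b : ℝ) : Prop :=
  ∃ C₁ A L₀ δ : ℝ, 0 < δ ∧ 1 ≤ L₀ ∧ ∀ n : ℕ, Adm n d →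
    ∀ E ∈ Set.Icc a b, ∀ η : ℝ, 0 < η → η ≤ 1 → L₀ ≤ n * η →
      prob (WW n d 1) (fun ω => C₁ ≤ ‖resD (adj ω.1) ∅ (zz E η) (ω.2.1 0) (ω.2.1 0)‖) ≤
        A * (n * η) ^ (-(1 + δ))

/-! ### FE12: consequences at every energy -/

/-- Uniform integrability of `Im G_vv(E+iη)` at every energy. -/
def SpecImUI (d : ℕ) (a b : ℝ) : Prop :=
  (∃ C : ℝ, ∀ n : ℕ, Adm n d → ∀ E ∈ Set.Icc a b, ∀ η : ℝ, 0 < η → η ≤ 1 → 1 ≤ n * η →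
    avg (WW n d 1) (fun ω => (resD (adj ω.1) ∅ (zz E η) (ω.2.1 0) (ω.2.1 0)).im) ≤ C) ∧
  (∀ L ≥ (1 : ℝ), ∀ ε > 0, ∃ M : ℝ, ∀ᶠ n : ℕ in admissible d, ∀ E ∈ Set.Icc a b,
    avg (WW n d 1) (fun ω => if M ≤ (resD (adj ω.1) ∅ (zz E (L / n)) (ω.2.1 0) (ω.2.1 0)).im
      then (resD (adj ω.1) ∅ (zz E (L / n)) (ω.2.1 0) (ω.2.1 0)).im else 0) ≤ ε)

/-- Conditions T1, T1', T4, T5 of `GoodSeq` at every energy, uniformly. -/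
def SpecEv (d : ℕ) (a b : ℝ) : Prop :=
  (∀ ε > 0, ∃ B : ℝ, ∀ᶠ n : ℕ in admissible d, ∀ E ∈ Set.Icc a b,
    avg (regularGraphs n d) (fun G => ∑ i, if B < |xx E G i| then (xx E G i ^ 2)⁻¹ else 0) ≤ ε) ∧
  (∀ B : ℝ, ∃ C : ℝ, ∀ᶠ n : ℕ in admissible d, ∀ E ∈ Set.Icc a b,
    avg (regularGraphs n d) (fun G => ∑ i, if |xx E G i| ≤ B then 1 else 0) ≤ C) ∧
  (∀ K : ℕ, ∀ ε > 0, ∃ L₀ : ℝ, ∀ L ≥ L₀, ∀ᶠ n : ℕ in admissible d, ∀ E ∈ Set.Icc a b,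
    prob (WW n d K) (fun ω => ∃ x y,
      ε < ‖starMat ω ((E : ℂ) + ((L / n : ℝ) : ℂ) * Complex.I) x y - KE d E K x y‖) ≤ ε) ∧
  (∀ B : ℝ, ∀ ε > 0, ∃ M : ℝ, ∀ᶠ n : ℕ in admissible d, ∀ E ∈ Set.Icc a b,
    avg (WW n d 1) (fun ω => ∑ i, if |xx E ω.1 i| ≤ B ∧ M < phi ω.1 i (ω.2.1 0) ^ 2
      then phi ω.1 i (ω.2.1 0) ^ 2 else 0) ≤ ε)

/-! ### FE13: fixed energy -/

/-- Conditions T2, T3 of `GoodSeq` in the microscopic average around a fixed energy. -/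
def SpecMic (d : ℕ) (a b : ℝ) : Prop :=
  (∀ S > 0, ∀ ε > 0, ∃ δ > 0, ∀ᶠ n : ℕ in admissible d, ∀ E ∈ Set.Icc a b,
    ∫ s in (-S)..S, prob (regularGraphs n d) (fun G => ∃ i, |xx (E + s / n) G i| ≤ δ) ≤ ε) ∧
  (∀ S > 0, ∀ K : ℕ, ∀ ε > 0, ∃ B : ℝ, ∀ᶠ n : ℕ in admissible d, ∀ E ∈ Set.Icc a b,
    ∫ s in (-S)..S, prob (WW n d K)
      (fun ω => ∃ p r, B < ‖leadMat ω ((E + s / n : ℝ) : ℂ) p r‖) ≤ ε)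

/-- **Fixed energy bulk universality.** -/
def SpecFixed (d : ℕ) : Prop :=
  ∀ E : ℝ, |E| < 2 * Real.sqrt ((d : ℝ) - 1) →
  ∀ f : ℝ → ℝ, Continuous f → HasCompactSupport f → (∀ x, 0 ≤ f x) →
    Tendsto (fun n => avg (regularGraphs n d) (fun G => Real.exp (-∫ x, f x ∂(Xi n d E G)))
      - ∫ w, Real.exp (-∫ x, f x ∂(XiGOE n w)) ∂(goeLaw n)) (admissible d) (𝓝 0)

end

end Vale.Agent.P156.FE
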