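import Vale.Agent.P156.FE.Spec

/-! # Fixed energy upgrade (FE): simplified interface (comparison weight `w' = 1`) -/

open MeasureTheory Filter Topology Matrix Finset

namespace Vale.Agent.P156.FE

noncomputable section

/-- `0 ≤ w` and a local change of the graph changes `w` by at most `b`. -/
structure Wt1 (n d : ℕ) (b : ℝ) (w : SimpleGraph (Fin n) → ℝ) : Prop where
  nonneg : ∀ G, 0 ≤ w G
  var : ∀ G ∈ regularGraphs n d, ∀ G' ∈ regularGraphs n d, Near ((d + 1) ^ 2) G G' →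
    |w G' - w G| ≤ b

theorem Wt1.wt {n d : ℕ} {b : ℝ} {w : SimpleGraph (Fin n) → ℝ} (h : Wt1 n d b w) :
    Wt n d b w (fun _ => 1) :=
  ⟨h.nonneg, fun _ => zero_le_one, fun G hG G' hG' hN => by simpa using h.var G hG G' hG' hN⟩

theorem Wt.wt1 {n d : ℕ} {b : ℝ} {w : SimpleGraph (Fin n) → ℝ} (h : Wt n d b w (fun _ => 1)) :
    Wt1 n d b w :=
  ⟨h.nonneg, fun G hG G' hG' hN => by simpa using h.var G hG G' hG' hN⟩

/-- FE8 with `w' = 1`. -/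
def SpecOS1 (d : ℕ) (a b : ℝ) : Prop :=
  ∃ ε₁ > 0, ∃ C : ℝ, ∃ κ : ℕ, 1 ≤ C ∧ ∀ n : ℕ, Adm n d → ∀ E ∈ Set.Icc a b,
    ∀ η H B : ℝ, 0 < η → 1 ≤ n * η → 1 ≤ H → H * η ≤ 1 → 0 ≤ B →
    ∀ w : SimpleGraph (Fin n) → ℝ, Wt1 n d (B / (n * η)) w →
    (∀ G ∈ regularGraphs n d, w G ≠ 0 → VV d G (zz E η) ≤ ε₁) →
      XW n d w (zz E η) ≤ C * XW n d w (zz E (H * η)) +
        C * H ^ κ * (1 + B) * (MW n d w + XW n d (fun _ => 1) (zz E η)) / (n * η)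

/-- FE9 with `w' = 1`. -/
def SpecBS1 (d : ℕ) (a b : ℝ) : Prop :=
  ∀ η₁ > 0, ∃ C : ℝ, 1 ≤ C ∧ ∀ n : ℕ, Adm n d → ∀ E ∈ Set.Icc a b,
    ∀ η B : ℝ, η₁ ≤ η → η ≤ 1 → 0 ≤ B →
    ∀ w : SimpleGraph (Fin n) → ℝ, Wt1 n d (B / n) w →
      XW n d w (zz E η) ≤ C * (1 + B) * (MW n d w + XW n d (fun _ => 1) (zz E η)) / n

theorem specOS1_of_specOS {d : ℕ} {a b : ℝ} (h : SpecOS d a b) : SpecOS1 d a b := by
  obtain ⟨ε₁, h1, C, κ, hC, h⟩ := h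
  exact ⟨ε₁, h1, C, κ, hC, fun n hn E hE η H B a1 a2 a3 a4 a5 w hw hs =>
    h n hn E hE η H B a1 a2 a3 a4 a5 w _ hw.wt hs⟩

theorem specBS1_of_specBS {d : ℕ} {a b : ℝ} (h : SpecBS d a b) : SpecBS1 d a b := by
  intro η₁ h1
  obtain ⟨C, hC, h⟩ := h η₁ h1
  exact ⟨C, hC, fun n hn E hE η B a1 a2 a3 w hw => h n hn E hE η B a1 a2 a3 w _ hw.wt⟩

/-- Second moment of the global observable at every energy and scale. -/
def SpecV2 (d : ℕ) (a b : ℝ) : Prop :=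
  ∃ A : ℝ, 1 ≤ A ∧ ∀ n : ℕ, Adm n d → ∀ E ∈ Set.Icc a b, ∀ η : ℝ, 0 < η → η ≤ 1 → 1 ≤ n * η →
    avg (regularGraphs n d) (fun G => VV d G (zz E η) ^ 2) ≤ A / (n * η) ^ 2

end

end Vale.Agent.P156.FE
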