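import Vale.Agent.P156.FE.Main
import Vale.Agent.P156.H894.FE8
import Vale.Agent.P156.B.FE9

/-! # Fixed energy bulk universality, unconditional -/

namespace Vale.Agent.P156.FE

open Vale.Agent.P156

theorem specBS1 {d : ℕ} {a b : ℝ} (hB : Bulk d a b) : SpecBS1 d a b := by
  have hd := hB.1
  exact specBS1_of_specBS (B.specBS (by omega) (B.specErr (by omega) (H574.specDec d) (H520.specWard d)))

/-- **Bulk universality at every fixed energy.** -/
theorem targetFixed {d : ℕ} (hd : 3 ≤ d) : TargetFixed d :=
  targetFixed_of hd (fun _ _ hB => specOS1 hB) (fun _ _ hB => specBS1 hB)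

end Vale.Agent.P156.FE
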